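import Mathlib

/-! P230, block G1-B (helper17): the cube part of the abstract block lemma. -/

namespace Vale.Agent.P230.G.Cube

open Finset

section Odlyzko

variable {F : Type*} [Field F] {ι : Type*} [Fintype ι] [DecidableEq ι]

omit [DecidableEq ι] in
/-- An affine subspace of dimension `k` contains at most `2^k` points of the cube. -/
theorem cube_card_le [Fintype F] [DecidableEq F] :
    ∀ (k : ℕ) (W : Submodule F (ι → F)) (a : ι → F), Module.finrank F W ≤ k →
      ∀ T : Finset (ι → F), (∀ x ∈ T, (∀ j, x j = 0 ∨ x j = 1) ∧ x - a ∈ W) →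
      T.card ≤ 2 ^ k := by
  intro k
  induction k with
  | zero =>
    intro W a hW T hT
    have hbot : W = ⊥ := by
      have : Module.finrank F W = 0 := by omega
      exact Submodule.finrank_eq_zero.mp this
    have : T.card ≤ 1 := by
      rw [Finset.card_le_one]
      intro x hx y hy
      have h1 := (hT x hx).2
      have h2 := (hT y hy).2
      rw [hbot, Submodule.mem_bot] at h1 h2
      rw [sub_eq_zero] at h1 h2
      rw [h1, h2]
    simpa using this
  | succ k ih =>
    intro W a hW T hT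
    by_cases hle : Module.finrank F W ≤ k
    · exact (ih W a hle T hT).trans (Nat.pow_le_pow_right (by norm_num) (Nat.le_succ k))
    · have hWne : W ≠ ⊥ := by
        rintro rfl
        simp at hle
      obtain ⟨w, hw, hw0⟩ := Submodule.exists_mem_ne_zero_of_ne_bot hWne
      have : ∃ j, w j ≠ 0 := by
        by_contra hcon
        push Not at hcon
        exact hw0 (funext hcon)
      obtain ⟨j, hj⟩ := this
      set W0 : Submodule F (ι → F) := W ⊓ LinearMap.ker (LinearMap.proj j : (ι → F) →ₗ[F] F) with hW0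
      have hlt : W0 < W := by
        refine lt_of_le_of_ne inf_le_left ?_
        intro heq
        have : w ∈ W0 := heq ▸ hw
        rw [hW0, Submodule.mem_inf, LinearMap.mem_ker] at this
        exact hj this.2
      have hfr : Module.finrank F W0 ≤ k := by
        have := Submodule.finrank_lt_finrank_of_lt hlt
        omega
      have key : ∀ c : F, (T.filter (fun x => x j = c)).card ≤ 2 ^ k := by
        intro c
        rcases (T.filter (fun x => x j = c)).eq_empty_or_nonempty with h | ⟨a0, ha0⟩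
        · rw [h]; simp
        · rw [Finset.mem_filter] at ha0
          refine ih W0 a0 hfr _ ?_
          intro x hx
          rw [Finset.mem_filter] at hx
          refine ⟨(hT x hx.1).1, ?_⟩
          rw [hW0, Submodule.mem_inf, LinearMap.mem_ker]
          constructor
          · have := W.sub_mem (hT x hx.1).2 (hT a0 ha0.1).2
            simpa using this
          · simp [hx.2, ha0.2]
      have hsplit : T ⊆ T.filter (fun x => x j = 0) ∪ T.filter (fun x => x j = 1) := by
        intro x hx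
        rw [Finset.mem_union, Finset.mem_filter, Finset.mem_filter]
        rcases (hT x hx).1 j with h | h
        · exact Or.inl ⟨hx, h⟩
        · exact Or.inr ⟨hx, h⟩
      calc T.card ≤ _ := Finset.card_le_card hsplit
        _ ≤ _ := Finset.card_union_le _ _
        _ ≤ 2 ^ k + 2 ^ k := Nat.add_le_add (key 0) (key 1)
        _ = 2 ^ (k + 1) := by ring

/-- indicator vector of a finset -/
def ind (F : Type*) [Field F] {ι : Type*} [DecidableEq ι] (E : Finset ι) : ι → F :=
  fun j => if j ∈ E then 1 else 0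

omit [Fintype ι] in
theorem ind_injective : Function.Injective (ind F : Finset ι → ι → F) := by
  intro E E' h
  ext j
  have := congrFun h j
  unfold ind at this
  by_cases h1 : j ∈ E <;> by_cases h2 : j ∈ E' <;> simp_all

/-- More than `2^(ρ-1)` subsets contain `ρ` with linearly independent indicator vectors. -/
theorem exists_indep [Fintype F] [DecidableEq F] (ρ : ℕ) (S : Finset (Finset ι))
    (hS : 2 ^ ρ < 2 * S.card) :
    ∃ e : Fin ρ → Finset ι, (∀ i, e i ∈ S) ∧ LinearIndependent F (fun i => ind F (e i)) := by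
  classical
  set T : Finset (ι → F) := S.image (ind F) with hT
  have hcard : T.card = S.card := Finset.card_image_of_injective _ ind_injective
  set W : Submodule F (ι → F) := Submodule.span F (T : Set (ι → F)) with hW
  have h1 : T.card ≤ 2 ^ (Module.finrank F W) := by
    refine cube_card_le (Module.finrank F W) W 0 le_rfl T ?_
    intro x hx
    refine ⟨?_, ?_⟩
    · rw [hT, Finset.mem_image] at hx
      obtain ⟨E, -, rfl⟩ := hx
      intro j
      unfold ind
      split_ifs <;> simp
    · rw [sub_zero, hW]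
      exact Submodule.subset_span hx
  have h2 : ρ ≤ Module.finrank F W := by
    by_contra hcon
    push Not at hcon
    have h3 : 2 ^ (Module.finrank F W + 1) ≤ 2 ^ ρ := Nat.pow_le_pow_right (by norm_num) hcon
    rw [pow_succ] at h3
    omega
  obtain ⟨b, hbT, hspan, hli⟩ := exists_linearIndependent F (T : Set (ι → F))
  have hbfin : b.Finite := (Finset.finite_toSet T).subset hbT
  have : Fintype b := hbfin.fintype
  have hbcard : Fintype.card b = Module.finrank F W := by
    have := finrank_span_set_eq_card hli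
    rw [hW, ← hspan, this, Set.toFinset_card]
  have hemb : Nonempty (Fin ρ ↪ b) := by
    rw [Function.Embedding.nonempty_iff_card_le, Fintype.card_fin, hbcard]
    exact h2
  obtain ⟨f⟩ := hemb
  have hmem : ∀ i, ∃ E ∈ S, ind F E = (f i : ι → F) := by
    intro i
    have : (f i : ι → F) ∈ T := by
      have := hbT (f i).2
      simpa using this
    rw [hT, Finset.mem_image] at this
    exact this
  choose e he1 he2 using hmem
  refine ⟨e, he1, ?_⟩
  have : (fun i => ind F (e i)) = (fun i => ((f i : b) : ι → F)) := by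
    funext i; exact he2 i
  rw [this]
  exact hli.comp f f.injective

/-- dual vectors for linearly independent indicator vectors supported in `J`. -/
theorem exists_dual (ρ : ℕ) (J : Finset ι) (e : Fin ρ → Finset ι) (he : ∀ i, e i ⊆ J)
    (hli : LinearIndependent F (fun i => ind F (e i))) :
    ∃ c : Fin ρ → ι → F, (∀ i, ∀ j ∉ J, c i j = 0) ∧
      ∀ i i', (∑ j ∈ e i', c i j) = if i = i' then 1 else 0 := by
  classical
  set M : Matrix (Fin ρ) ι F := Matrix.of (fun i => ind F (e i)) with hM
  have hrank : M.rank = Fintype.card (Fin ρ) := LinearIndependent.rank_matrix hli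
  have hsurj : Function.Surjective M.mulVecLin := by
    rw [← LinearMap.range_eq_top]
    apply Submodule.eq_top_of_finrank_eq
    rw [Module.finrank_fintype_fun_eq_card]
    exact hrank
  have h : ∀ i : Fin ρ, ∃ c : ι → F, M.mulVec c = Pi.single i 1 := by
    intro i
    obtain ⟨c, hc⟩ := hsurj (Pi.single i 1)
    exact ⟨c, by simpa using hc⟩
  choose c0 hc0 using h
  refine ⟨fun i j => if j ∈ J then c0 i j else 0, ?_, ?_⟩
  · intro i j hj
    simp [hj]
  · intro i i'
    have h1 : (∑ j ∈ e i', (if j ∈ J then c0 i j else 0)) = ∑ j ∈ e i', c0 i j := by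
      refine Finset.sum_congr rfl ?_
      intro j hj
      rw [if_pos (he i' hj)]
    rw [h1]
    have h2 := congrFun (hc0 i) i'
    rw [Matrix.mulVec, dotProduct] at h2
    have h3 : (∑ j, M i' j * c0 i j) = ∑ j ∈ e i', c0 i j := by
      rw [← Finset.sum_filter_add_sum_filter_not Finset.univ (fun j => j ∈ e i')]
      have ha : (Finset.univ.filter (fun j => j ∈ e i')) = e i' := by
        ext j; simp
      rw [ha]
      have hb : ∑ x ∈ Finset.univ.filter (fun j => ¬ j ∈ e i'), M i' x * c0 i x = 0 := by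
        refine Finset.sum_eq_zero ?_
        intro x hx
        rw [Finset.mem_filter] at hx
        simp [hM, ind, hx.2]
      rw [hb, add_zero]
      refine Finset.sum_congr rfl ?_
      intro x hx
      simp [hM, ind, hx]
    rw [h3] at h2
    rw [h2, Pi.single_apply]
    simp [eq_comm]

end Odlyzko

section Count

/-- Averaging over shifts. -/
theorem card_le_of_shift {B T : Type*} [Fintype B] [AddCommGroup B] [DecidableEq B] [Fintype T]
    (σ : T → B) (Q : Finset B) (K : ℝ)
    (h : ∀ β : B, ((univ.filter (fun t : T => β + σ t ∈ Q)).card : ℝ) ≤ K) :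
    (Q.card : ℝ) * Fintype.card T ≤ K * Fintype.card B := by
  classical
  have h1 : ∑ β : B, ((univ.filter (fun t : T => β + σ t ∈ Q)).card : ℝ)
      = (Q.card : ℝ) * Fintype.card T := by
    have : ∀ β : B, ((univ.filter (fun t : T => β + σ t ∈ Q)).card : ℝ)
        = ∑ t : T, if β + σ t ∈ Q then (1 : ℝ) else 0 := by
      intro β
      rw [Finset.card_filter]
      push_cast
      rfl
    simp_rw [this]
    rw [Finset.sum_comm]
    have h2 : ∀ t : T, (∑ β : B, if β + σ t ∈ Q then (1 : ℝ) else 0) = Q.card := by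
      intro t
      rw [Fintype.sum_equiv (Equiv.addRight (σ t)) (fun β => if β + σ t ∈ Q then (1 : ℝ) else 0)
        (fun β => if β ∈ Q then (1 : ℝ) else 0) (fun β => rfl)]
      simp
    simp_rw [h2]
    rw [Finset.sum_const, Finset.card_univ, nsmul_eq_mul, mul_comm]
  rw [← h1]
  calc _ ≤ ∑ β : B, K := Finset.sum_le_sum (fun β _ => h β)
    _ = K * Fintype.card B := by
      rw [Finset.sum_const, Finset.card_univ, nsmul_eq_mul, mul_comm]

variable {F : Type*} [Field F] {V : Type*} [AddCommGroup V] [Module F V] [Fintype V]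
  [DecidableEq V] {I : Type*} [Fintype I] [DecidableEq I]

/-- `ζ·β` is uniform for `ζ ≠ 0`. -/
theorem card_lincomb (ζ : I → F) (hζ : ζ ≠ 0) (A : Finset V) :
    ((univ.filter (fun β : I → V => ∑ j, ζ j • β j ∈ A)).card : ℝ) * Fintype.card V
      ≤ (A.card : ℝ) * Fintype.card (I → V) := by
  classical
  have : ∃ j, ζ j ≠ 0 := by
    by_contra hcon
    push Not at hcon
    exact hζ (funext hcon)
  obtain ⟨j0, hj0⟩ := this
  refine card_le_of_shift (fun t : V => (Pi.single j0 ((ζ j0)⁻¹ • t) : I → V)) _ _ ?_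
  intro β
  have hsum : ∀ t : V, ∑ j, ζ j • (β + (Pi.single j0 ((ζ j0)⁻¹ • t) : I → V)) j
      = (∑ j, ζ j • β j) + t := by
    intro t
    simp only [Pi.add_apply, smul_add, Finset.sum_add_distrib]
    congr 1
    rw [Finset.sum_eq_single j0]
    · rw [Pi.single_eq_same, smul_smul, mul_inv_cancel₀ hj0, one_smul]
    · intro j _ hj
      rw [Pi.single_eq_of_ne hj, smul_zero]
    · intro h; exact absurd (Finset.mem_univ _) h
  have : (univ.filter (fun t : V => β + (Pi.single j0 ((ζ j0)⁻¹ • t) : I → V) ∈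
      univ.filter (fun β : I → V => ∑ j, ζ j • β j ∈ A))).card ≤ A.card := by
    refine Finset.card_le_card_of_injOn (fun t => (∑ j, ζ j • β j) + t) ?_ ?_
    · intro t ht
      simp only [Finset.coe_filter, Set.mem_ofPred_eq, Finset.mem_filter, Finset.mem_univ,
        true_and] at ht
      rw [hsum] at ht
      exact ht
    · intro t _ t' _ htt
      exact add_left_cancel htt
  exact_mod_cast this

/-- The tuple count. -/
theorem card_tuple (J1 J2 : Finset I) (hJ : Disjoint J1 J2) (ρ : ℕ) (e : Fin ρ → Finset I)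
    (he : ∀ i, e i ⊆ J2) (hli : LinearIndependent F (fun i => ind F (e i)))
    (Bad : (I → V) → Finset V) (hBad : ∀ β β' : I → V, (∀ j ∈ J1, β j = β' j) → Bad β = Bad β')
    (K : ℝ) (hK : 0 ≤ K) (v : V) :
    ((univ.filter (fun β : I → V => ((Bad β).card : ℝ) ≤ K ∧
        ∀ i, v + ∑ j ∈ e i, β j ∈ Bad β)).card : ℝ) * (Fintype.card V : ℝ) ^ ρ
      ≤ K ^ ρ * Fintype.card (I → V) := by
  classical
  obtain ⟨c, hc0, hc1⟩ := exists_dual ρ J2 e he hli
  set σ : (Fin ρ → V) → (I → V) := fun t j => ∑ i, c i j • t i with hσ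
  have hmain := card_le_of_shift σ (univ.filter (fun β : I → V => ((Bad β).card : ℝ) ≤ K ∧
        ∀ i, v + ∑ j ∈ e i, β j ∈ Bad β)) (K ^ ρ) ?_
  · have hcardT : (Fintype.card (Fin ρ → V) : ℝ) = (Fintype.card V : ℝ) ^ ρ := by
      rw [Fintype.card_fun, Fintype.card_fin]; push_cast; rfl
    rw [hcardT] at hmain
    exact hmain
  · intro β
    have hB : ∀ t, Bad (β + σ t) = Bad β := by
      intro t
      apply hBad
      intro j hj
      have : σ t j = 0 := by
        rw [hσ]
        simp only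
        refine Finset.sum_eq_zero ?_
        intro i _
        rw [hc0 i j (Finset.disjoint_left.mp hJ hj), zero_smul]
      rw [Pi.add_apply, this, add_zero]
    have hS : ∀ t i, ∑ j ∈ e i, (β + σ t) j = (∑ j ∈ e i, β j) + t i := by
      intro t i
      simp only [Pi.add_apply, Finset.sum_add_distrib]
      congr 1
      rw [hσ]
      simp only
      rw [Finset.sum_comm]
      have : ∀ i', ∑ j ∈ e i, c i' j • t i' = (if i' = i then (1 : F) else 0) • t i' := by
        intro i'
        rw [← Finset.sum_smul, hc1 i' i]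
      simp_rw [this]
      rw [Finset.sum_eq_single i]
      · simp
      · intro b _ hb; rw [if_neg hb, zero_smul]
      · intro h; exact absurd (Finset.mem_univ _) h
    by_cases hle : ((Bad β).card : ℝ) ≤ K
    · have hcard : (univ.filter (fun t : Fin ρ → V => β + σ t ∈
          univ.filter (fun β : I → V => ((Bad β).card : ℝ) ≤ K ∧
          ∀ i, v + ∑ j ∈ e i, β j ∈ Bad β))).card ≤
          (Fintype.piFinset (fun _ : Fin ρ => Bad β)).card := by
        refine Finset.card_le_card_of_injOn (fun t i => v + ((∑ j ∈ e i, β j) + t i)) ?_ ?_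
        · intro t ht
          simp only [Finset.coe_filter, Set.mem_ofPred_eq, Finset.mem_filter, Finset.mem_univ,
            true_and] at ht
          rw [Finset.mem_coe, Fintype.mem_piFinset]
          intro i
          have := ht.2 i
          rw [hS, hB] at this
          exact this
        · intro t _ t' _ htt
          funext i
          have := congrFun htt i
          simpa using this
      rw [Fintype.card_piFinset_const] at hcard
      calc _ ≤ (((Bad β).card ^ ρ : ℕ) : ℝ) := by exact_mod_cast hcard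
        _ = ((Bad β).card : ℝ) ^ ρ := by push_cast; rfl
        _ ≤ K ^ ρ := pow_le_pow_left₀ (by positivity) hle ρ
    · have : (univ.filter (fun t : Fin ρ → V => β + σ t ∈
          univ.filter (fun β : I → V => ((Bad β).card : ℝ) ≤ K ∧
          ∀ i, v + ∑ j ∈ e i, β j ∈ Bad β))) = ∅ := by
        refine Finset.filter_eq_empty_iff.mpr ?_
        intro t _ ht
        simp only [Finset.mem_filter, Finset.mem_univ, true_and] at ht
        rw [hB] at ht
        exact hle ht.1
      rw [this]
      simp only [Finset.card_empty, Nat.cast_zero]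
      positivity

end Count

section Gamma

variable {V : Type*} [AddCommGroup V] [Fintype V] [DecidableEq V]

/-- correlation -/
noncomputable def Gam (X : V → ℝ) (u : V) : ℝ := ∑ v, X v * X (v + u)

/-- unnormalised U2 sum -/
noncomputable def U2 (X : V → ℝ) : ℝ :=
  ∑ u, ∑ v, ∑ w, X v * X (v + u) * X (v + w) * X (v + u + w)

omit [DecidableEq V] in
theorem sum_Gam (X : V → ℝ) : ∑ u, Gam X u = (∑ v, X v) ^ 2 := by
  unfold Gam
  rw [Finset.sum_comm, sq, Finset.sum_mul]
  refine Finset.sum_congr rfl ?_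
  intro v _
  rw [← Finset.mul_sum]
  congr 1
  exact Fintype.sum_equiv (Equiv.addLeft v) _ _ (fun u => rfl)

omit [DecidableEq V] in
theorem sum_Gam_sq (X : V → ℝ) : ∑ u, Gam X u ^ 2 = U2 X := by
  unfold Gam U2
  refine Finset.sum_congr rfl ?_
  intro u _
  rw [sq, Finset.sum_mul]
  refine Finset.sum_congr rfl ?_
  intro v _
  rw [Finset.mul_sum]
  rw [← Fintype.sum_equiv (Equiv.addLeft v) (fun w => X v * X (v + u) * X (v + w) * X (v + u + w))
    (fun v' => X v * X (v + u) * (X v' * X (v' + u)))]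
  intro w
  simp only [Equiv.coe_addLeft]
  have : v + u + w = v + w + u := by abel
  rw [this]; ring

omit [DecidableEq V] in
theorem Gam_shift (X : V → ℝ) (x y : V) : ∑ v, X (v + x) * X (v + y) = Gam X (y - x) := by
  unfold Gam
  refine Fintype.sum_equiv (Equiv.addRight x) _ _ (fun v => ?_)
  simp only [Equiv.coe_addRight]
  congr 2
  abel

omit [DecidableEq V] in
/-- the variance of the correlation in terms of the U2 sum -/
theorem variance_Gam (X : V → ℝ) (mu D : ℝ)
    (hmu : ∑ v, X v = mu * Fintype.card V)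
    (hU : U2 X ≤ (mu ^ 4 + D) * (Fintype.card V : ℝ) ^ 3) :
    ∑ u, (Gam X u - mu ^ 2 * Fintype.card V) ^ 2 ≤ D * (Fintype.card V : ℝ) ^ 3 := by
  set N : ℝ := (Fintype.card V : ℝ) with hN
  have : ∑ u, (Gam X u - mu ^ 2 * N) ^ 2
      = ∑ u, Gam X u ^ 2 - 2 * (mu ^ 2 * N) * ∑ u, Gam X u + N * (mu ^ 2 * N) ^ 2 := by
    simp_rw [sub_sq]
    rw [Finset.sum_add_distrib, Finset.sum_sub_distrib, Finset.sum_const, Finset.card_univ,
      nsmul_eq_mul, ← hN, Finset.mul_sum]
    congr 2
    refine Finset.sum_congr rfl ?_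
    intro u _; ring
  rw [this, sum_Gam, sum_Gam_sq, hmu]
  nlinarith [hU]

omit [DecidableEq V] in
/-- Few `u` have large correlation. -/
theorem card_large_Gam (X : V → ℝ) (mu D τ : ℝ) (hτ : 0 < τ)
    (hU : ∑ u, (Gam X u - mu ^ 2 * Fintype.card V) ^ 2 ≤ D * (Fintype.card V : ℝ) ^ 3) :
    ((univ.filter (fun u => (mu ^ 2 + τ) * Fintype.card V < Gam X u)).card : ℝ) * τ ^ 2
      ≤ D * Fintype.card V := by
  set N : ℝ := (Fintype.card V : ℝ) with hN
  have hNpos : 0 < N := by
    rw [hN]
    have : 0 < Fintype.card V := Fintype.card_pos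
    exact_mod_cast this
  have h2 : ((univ.filter (fun u => (mu ^ 2 + τ) * N < Gam X u)).card : ℝ) * (τ * N) ^ 2
      ≤ ∑ u, (Gam X u - mu ^ 2 * N) ^ 2 := by
    calc _ = ∑ u ∈ univ.filter (fun u => (mu ^ 2 + τ) * N < Gam X u), (τ * N) ^ 2 := by
          rw [Finset.sum_const, nsmul_eq_mul]
      _ ≤ ∑ u ∈ univ.filter (fun u => (mu ^ 2 + τ) * N < Gam X u),
            (Gam X u - mu ^ 2 * N) ^ 2 := by
          refine Finset.sum_le_sum ?_
          intro u hu
          rw [Finset.mem_filter] at hu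
          refine pow_le_pow_left₀ (by positivity) ?_ 2
          nlinarith [hu.2]
      _ ≤ _ := Finset.sum_le_sum_of_subset_of_nonneg (Finset.filter_subset _ _)
            (fun _ _ _ => sq_nonneg _)
  have h3 := h2.trans hU
  have h4 : ((univ.filter (fun u => (mu ^ 2 + τ) * N < Gam X u)).card : ℝ) * τ ^ 2 * N ^ 2
      ≤ D * N * N ^ 2 := by nlinarith
  exact le_of_mul_le_mul_right h4 (by positivity)

end Gamma

section Cube

variable {F : Type*} [Field F] {V : Type*} [AddCommGroup V] [Module F V] [Fintype V]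
  [DecidableEq V] {I : Type*} [Fintype I] [DecidableEq I]

/-- cube sum of `X` at `v` over subsets of `J`. -/
noncomputable def cs (X : V → ℝ) (β : I → V) (J : Finset I) (v : V) : ℝ :=
  ∑ E ∈ J.powerset, X (v + ∑ j ∈ E, β j)

omit [DecidableEq V] [Fintype I] [DecidableEq I] in
theorem sum_cs (X : V → ℝ) (β : I → V) (J : Finset I) :
    ∑ v, cs X β J v = 2 ^ J.card * ∑ v, X v := by
  unfold cs
  rw [Finset.sum_comm]
  have : ∀ E ∈ J.powerset, ∑ v, X (v + ∑ j ∈ E, β j) = ∑ v, X v := by
    intro E _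
    exact Fintype.sum_equiv (Equiv.addRight _) _ _ (fun v => rfl)
  rw [Finset.sum_congr rfl this, Finset.sum_const, Finset.card_powerset, nsmul_eq_mul]
  push_cast; rfl

omit [DecidableEq V] in
/-- second moment of the cube sum, under the good event. -/
theorem sum_cs_sq (F : Type*) [Field F] [DecidableEq F] [Module F V] (X : V → ℝ) (β : I → V)
    (M : ℝ) (hM : 0 ≤ M)
    (hgood : ∀ ζ : I → F, (∀ j, ζ j = 0 ∨ ζ j = 1 ∨ ζ j = -1) → ζ ≠ 0 →
      Gam X (∑ j, ζ j • β j) ≤ M) (J : Finset I) :
    ∑ v, cs X β J v ^ 2 ≤ 2 ^ J.card * Gam X 0 + 4 ^ J.card * M := by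
  classical
  have h1 : ∑ v, cs X β J v ^ 2
      = ∑ E ∈ J.powerset, ∑ E' ∈ J.powerset, Gam X (∑ j ∈ E', β j - ∑ j ∈ E, β j) := by
    unfold cs
    simp_rw [sq, Finset.sum_mul, Finset.mul_sum]
    rw [Finset.sum_comm]
    refine Finset.sum_congr rfl ?_
    intro E _
    rw [Finset.sum_comm]
    refine Finset.sum_congr rfl ?_
    intro E' _
    exact Gam_shift X _ _
  have h2 : ∀ E ∈ J.powerset, ∑ E' ∈ J.powerset, Gam X (∑ j ∈ E', β j - ∑ j ∈ E, β j)
      ≤ Gam X 0 + 2 ^ J.card * M := by
    intro E hE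
    rw [← Finset.add_sum_erase _ _ hE, sub_self]
    refine add_le_add le_rfl ?_
    calc _ ≤ ∑ E' ∈ (J.powerset).erase E, M := by
          refine Finset.sum_le_sum ?_
          intro E' hE'
          rw [Finset.mem_erase] at hE'
          have hdiff : ∑ j ∈ E', β j - ∑ j ∈ E, β j
              = ∑ j, (ind F E' j - ind F E j) • β j := by
            have aux : ∀ A : Finset I, ∑ j ∈ A, β j = ∑ j, ind F A j • β j := by
              intro A
              unfold ind
              simp_rw [ite_smul, one_smul, zero_smul]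
              rw [Finset.sum_ite_mem, Finset.univ_inter]
            rw [aux, aux, ← Finset.sum_sub_distrib]
            refine Finset.sum_congr rfl ?_
            intro j _
            rw [sub_smul]
          rw [hdiff]
          refine hgood (fun j => ind F E' j - ind F E j) ?_ ?_
          · intro j
            unfold ind
            by_cases h1 : j ∈ E' <;> by_cases h2 : j ∈ E <;> simp [h1, h2]
          · intro h0
            apply hE'.1
            apply ind_injective (F := F)
            funext j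
            have := congrFun h0 j
            simp only [Pi.zero_apply] at this
            exact sub_eq_zero.mp this
      _ = (((J.powerset).erase E).card : ℝ) * M := by rw [Finset.sum_const, nsmul_eq_mul]
      _ ≤ 2 ^ J.card * M := by
          refine mul_le_mul_of_nonneg_right ?_ hM
          have : ((J.powerset).erase E).card ≤ 2 ^ J.card := by
            calc _ ≤ (J.powerset).card := Finset.card_le_card (Finset.erase_subset _ _)
              _ = _ := Finset.card_powerset J
          exact_mod_cast this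
  rw [h1]
  calc _ ≤ ∑ E ∈ J.powerset, (Gam X 0 + 2 ^ J.card * M) := Finset.sum_le_sum h2
    _ = 2 ^ J.card * Gam X 0 + 4 ^ J.card * M := by
      rw [Finset.sum_const, Finset.card_powerset, nsmul_eq_mul]
      have : (4 : ℝ) ^ J.card = 2 ^ J.card * 2 ^ J.card := by
        rw [← mul_pow]; norm_num
      rw [this]; push_cast; ring

omit [DecidableEq V] [Fintype I] in
theorem sum_powerset_union (f : Finset I → ℝ) (A B : Finset I) (h : Disjoint A B) :
    ∑ E ∈ (A ∪ B).powerset, f E = ∑ E1 ∈ A.powerset, ∑ E2 ∈ B.powerset, f (E1 ∪ E2) := by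
  rw [← Finset.sum_product']
  refine Finset.sum_nbij' (fun E => (E ∩ A, E ∩ B)) (fun p => p.1 ∪ p.2) ?_ ?_ ?_ ?_ ?_
  · intro E _
    simp only [Finset.mem_product, Finset.mem_powerset]
    exact ⟨Finset.inter_subset_right, Finset.inter_subset_right⟩
  · intro p hp
    simp only [Finset.mem_product, Finset.mem_powerset] at hp ⊢
    exact Finset.union_subset_union hp.1 hp.2
  · intro E hE
    simp only [Finset.mem_powerset] at hE
    simp only
    rw [← Finset.inter_union_distrib_left]
    exact Finset.inter_eq_left.mpr hE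
  · rintro ⟨E1, E2⟩ hp
    simp only [Finset.mem_product, Finset.mem_powerset] at hp
    simp only [Prod.mk.injEq]
    constructor
    · ext j
      simp only [Finset.mem_inter, Finset.mem_union]
      constructor
      · rintro ⟨h1 | h1, h2⟩
        · exact h1
        · exact absurd (hp.2 h1) (Finset.disjoint_left.mp h h2)
      · intro h1; exact ⟨Or.inl h1, hp.1 h1⟩
    · ext j
      simp only [Finset.mem_inter, Finset.mem_union]
      constructor
      · rintro ⟨h1 | h1, h2⟩
        · exact absurd h2 (Finset.disjoint_left.mp h (hp.1 h1))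
        · exact h1
      · intro h1; exact ⟨Or.inr h1, hp.2 h1⟩
  · intro E hE
    simp only [Finset.mem_powerset] at hE
    simp only
    rw [← Finset.inter_union_distrib_left, Finset.inter_eq_left.mpr hE]

omit [DecidableEq V] [Fintype V] [Fintype I] in
theorem cs_union (X : V → ℝ) (β : I → V) (A B : Finset I) (h : Disjoint A B) (v : V) :
    cs X β (A ∪ B) v = ∑ E ∈ B.powerset, cs X β A (v + ∑ j ∈ E, β j) := by
  unfold cs
  rw [sum_powerset_union _ A B h, Finset.sum_comm]
  refine Finset.sum_congr rfl ?_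
  intro E2 hE2
  refine Finset.sum_congr rfl ?_
  intro E1 hE1
  rw [Finset.mem_powerset] at hE1 hE2
  rw [Finset.sum_union (Finset.disjoint_of_subset_left hE1 (Finset.disjoint_of_subset_right hE2 h))]
  congr 1
  abel

/-- the bad set -/
noncomputable def BadS (X Y : V → ℝ) (mu ε : ℝ) (J : Finset I) (β : I → V) : Finset V :=
  univ.filter (fun v => cs X β J v < 2 ^ J.card * (mu - ε) ∨ 2 ^ J.card * ε < cs Y β J v)

omit [DecidableEq V] [Fintype I] [DecidableEq I] in
theorem BadS_congr (X Y : V → ℝ) (mu ε : ℝ) (J : Finset I) (β β' : I → V)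
    (h : ∀ j ∈ J, β j = β' j) : BadS X Y mu ε J β = BadS X Y mu ε J β' := by
  have : ∀ Z : V → ℝ, cs Z β J = cs Z β' J := by
    intro Z
    funext v
    unfold cs
    refine Finset.sum_congr rfl ?_
    intro E hE
    rw [Finset.mem_powerset] at hE
    rw [Finset.sum_congr rfl (fun j hj => h j (hE hj))]
  unfold BadS
  rw [this X, this Y]

omit [DecidableEq V] in
theorem card_BadS (F : Type*) [Field F] [DecidableEq F] [Module F V] (X Y : V → ℝ)
    (hY0 : ∀ v, 0 ≤ Y v) (mu m2 κ τ ε : ℝ) (hε : 0 < ε) (hτ : 0 < τ)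
    (hmu : ∑ v, X v = mu * Fintype.card V)
    (hm2 : ∑ v, X v ^ 2 ≤ m2 * Fintype.card V)
    (hκ : ∑ v, Y v ≤ κ * Fintype.card V) (β : I → V)
    (hgood : ∀ ζ : I → F, (∀ j, ζ j = 0 ∨ ζ j = 1 ∨ ζ j = -1) → ζ ≠ 0 →
      Gam X (∑ j, ζ j • β j) ≤ (mu ^ 2 + τ) * Fintype.card V) (J : Finset I) :
    ((BadS X Y mu ε J β).card : ℝ)
      ≤ ((m2 / 2 ^ J.card + τ) / ε ^ 2 + κ / ε) * Fintype.card V := by
  classical
  set N : ℝ := (Fintype.card V : ℝ) with hN
  have hNpos : 0 < N := by
    rw [hN]
    have : 0 < Fintype.card V := Fintype.card_pos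
    exact_mod_cast this
  set k : ℝ := (2 : ℝ) ^ J.card with hk
  have hkpos : 0 < k := by rw [hk]; positivity
  have h4 : (4 : ℝ) ^ J.card = k ^ 2 := by
    rw [hk, ← pow_mul, mul_comm, pow_mul]; norm_num
  set B1 := univ.filter (fun v => cs X β J v < k * (mu - ε)) with hB1
  set B2 := univ.filter (fun v => k * ε < cs Y β J v) with hB2
  have hsub : BadS X Y mu ε J β ⊆ B1 ∪ B2 := by
    intro v hv
    unfold BadS at hv
    rw [Finset.mem_filter] at hv
    rw [Finset.mem_union, hB1, hB2, Finset.mem_filter, Finset.mem_filter]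
    rcases hv.2 with h | h
    · exact Or.inl ⟨Finset.mem_univ _, h⟩
    · exact Or.inr ⟨Finset.mem_univ _, h⟩
  have hc1 : (B1.card : ℝ) ≤ (m2 / k + τ) / ε ^ 2 * N := by
    have ha : (B1.card : ℝ) * (k * ε) ^ 2 ≤ ∑ v, (cs X β J v - k * mu) ^ 2 := by
      calc _ = ∑ v ∈ B1, (k * ε) ^ 2 := by rw [Finset.sum_const, nsmul_eq_mul]
        _ ≤ ∑ v ∈ B1, (cs X β J v - k * mu) ^ 2 := by
          refine Finset.sum_le_sum ?_
          intro v hv
          rw [hB1, Finset.mem_filter] at hv
          have h1 := hv.2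
          have : (cs X β J v - k * mu) ^ 2 = (k * mu - cs X β J v) ^ 2 := by ring
          rw [this]
          refine pow_le_pow_left₀ (by positivity) ?_ 2
          nlinarith
        _ ≤ _ := Finset.sum_le_sum_of_subset_of_nonneg (Finset.filter_subset _ _)
            (fun _ _ _ => sq_nonneg _)
    have hb : ∑ v, (cs X β J v - k * mu) ^ 2
        = ∑ v, cs X β J v ^ 2 - 2 * (k * mu) * ∑ v, cs X β J v + N * (k * mu) ^ 2 := by
      simp_rw [sub_sq]
      rw [Finset.sum_add_distrib, Finset.sum_sub_distrib, Finset.sum_const, Finset.card_univ,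
        nsmul_eq_mul, ← hN, Finset.mul_sum]
      congr 2
      refine Finset.sum_congr rfl ?_
      intro u _; ring
    have hM : 0 ≤ (mu ^ 2 + τ) * N := by positivity
    have hc := sum_cs_sq F X β _ hM hgood J
    have hG0 : Gam X 0 ≤ m2 * N := by
      unfold Gam
      simp only [add_zero]
      simp_rw [← sq]
      exact hm2
    rw [sum_cs, hmu] at hb
    rw [h4] at hc
    have hd : (B1.card : ℝ) * (k * ε) ^ 2 ≤ k * (m2 * N) + k ^ 2 * (τ * N) := by
      have h5 : k * Gam X 0 ≤ k * (m2 * N) := mul_le_mul_of_nonneg_left hG0 hkpos.le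
      rw [← hk] at hb hc
      nlinarith
    rw [div_mul_eq_mul_div, le_div_iff₀ (by positivity)]
    have : k ^ 2 * ((B1.card : ℝ) * ε ^ 2) ≤ k ^ 2 * ((m2 / k + τ) * N) := by
      calc _ = (B1.card : ℝ) * (k * ε) ^ 2 := by ring
        _ ≤ _ := hd
        _ = _ := by field_simp
    exact le_of_mul_le_mul_left this (by positivity)
  have hc2 : (B2.card : ℝ) ≤ κ / ε * N := by
    have hcs0 : ∀ v, 0 ≤ cs Y β J v := fun v => Finset.sum_nonneg (fun E _ => hY0 _)
    have ha : (B2.card : ℝ) * (k * ε) ≤ ∑ v, cs Y β J v := by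
      calc _ = ∑ v ∈ B2, (k * ε) := by rw [Finset.sum_const, nsmul_eq_mul]
        _ ≤ ∑ v ∈ B2, cs Y β J v := by
          refine Finset.sum_le_sum ?_
          intro v hv
          rw [hB2, Finset.mem_filter] at hv
          exact hv.2.le
        _ ≤ _ := Finset.sum_le_sum_of_subset_of_nonneg (Finset.filter_subset _ _)
            (fun v _ _ => hcs0 v)
    rw [sum_cs, ← hk] at ha
    rw [div_mul_eq_mul_div, le_div_iff₀ hε]
    have : k * ((B2.card : ℝ) * ε) ≤ k * (κ * N) := by
      calc _ = (B2.card : ℝ) * (k * ε) := by ring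
        _ ≤ _ := ha
        _ ≤ _ := mul_le_mul_of_nonneg_left hκ hkpos.le
    exact le_of_mul_le_mul_left this hkpos
  calc ((BadS X Y mu ε J β).card : ℝ) ≤ ((B1 ∪ B2).card : ℝ) := by
        exact_mod_cast Finset.card_le_card hsub
    _ ≤ (B1.card : ℝ) + (B2.card : ℝ) := by exact_mod_cast Finset.card_union_le _ _
    _ ≤ _ := by rw [add_mul]; exact add_le_add hc1 hc2

end Cube

section Final

variable (F : Type*) [Field F] [Fintype F] [DecidableEq F] {V : Type*} [AddCommGroup V]
  [Module F V] [Fintype V] [DecidableEq V] {I : Type*} [Fintype I] [DecidableEq I]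

omit [Fintype F] in
/-- union bound over `ζ` -/
theorem card_notgood (X : V → ℝ) (mu D τ : ℝ) (hτ : 0 < τ)
    (hU : ∑ u, (Gam X u - mu ^ 2 * Fintype.card V) ^ 2 ≤ D * (Fintype.card V : ℝ) ^ 3)
    (h1 : 2 * 3 ^ Fintype.card I * D < τ ^ 2) (S : Finset (I → V))
    (hS : ∀ β ∈ S, ∃ ζ : I → F, (∀ j, ζ j = 0 ∨ ζ j = 1 ∨ ζ j = -1) ∧ ζ ≠ 0 ∧
      (mu ^ 2 + τ) * Fintype.card V < Gam X (∑ j, ζ j • β j)) :
    2 * (S.card : ℝ) < Fintype.card (I → V) := by
  classical
  set N : ℝ := (Fintype.card V : ℝ) with hN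
  have hNpos : 0 < N := by
    rw [hN]
    have : 0 < Fintype.card V := Fintype.card_pos
    exact_mod_cast this
  have hNIpos : (0 : ℝ) < Fintype.card (I → V) := by
    have : 0 < Fintype.card (I → V) := Fintype.card_pos
    exact_mod_cast this
  set A := univ.filter (fun u => (mu ^ 2 + τ) * N < Gam X u) with hA
  set Z : Finset (I → F) := (Fintype.piFinset (fun _ : I => ({0, 1, -1} : Finset F))).erase 0
    with hZ
  have hZc : (Z.card : ℝ) ≤ 3 ^ Fintype.card I := by
    have : Z.card ≤ 3 ^ Fintype.card I := by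
      calc Z.card ≤ _ := Finset.card_le_card (Finset.erase_subset _ _)
        _ = ({0, 1, -1} : Finset F).card ^ Fintype.card I := by simp
        _ ≤ 3 ^ Fintype.card I := Nat.pow_le_pow_left Finset.card_le_three _
    exact_mod_cast this
  have hsub : S ⊆ Z.biUnion (fun ζ => univ.filter (fun β : I → V => ∑ j, ζ j • β j ∈ A)) := by
    intro β hβ
    obtain ⟨ζ, hζ1, hζ2, hζ3⟩ := hS β hβ
    rw [Finset.mem_biUnion]
    refine ⟨ζ, ?_, ?_⟩
    · rw [hZ, Finset.mem_erase, Fintype.mem_piFinset]
      refine ⟨hζ2, ?_⟩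
      intro j
      simp only [Finset.mem_insert, Finset.mem_singleton]
      exact hζ1 j
    · rw [Finset.mem_filter, hA, Finset.mem_filter]
      exact ⟨Finset.mem_univ _, Finset.mem_univ _, hζ3⟩
  have hle : (S.card : ℝ) ≤ 3 ^ Fintype.card I * ((A.card : ℝ) * Fintype.card (I → V) / N) := by
    calc (S.card : ℝ) ≤ ((Z.biUnion
            (fun ζ => univ.filter (fun β : I → V => ∑ j, ζ j • β j ∈ A))).card : ℝ) := by
          exact_mod_cast Finset.card_le_card hsub
      _ ≤ ∑ ζ ∈ Z, ((univ.filter (fun β : I → V => ∑ j, ζ j • β j ∈ A)).card : ℝ) := by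
          exact_mod_cast Finset.card_biUnion_le
      _ ≤ ∑ ζ ∈ Z, ((A.card : ℝ) * Fintype.card (I → V) / N) := by
          refine Finset.sum_le_sum ?_
          intro ζ hζ
          rw [le_div_iff₀ hNpos]
          rw [hZ, Finset.mem_erase] at hζ
          exact card_lincomb ζ hζ.1 A
      _ = (Z.card : ℝ) * ((A.card : ℝ) * Fintype.card (I → V) / N) := by
          rw [Finset.sum_const, nsmul_eq_mul]
      _ ≤ _ := mul_le_mul_of_nonneg_right hZc (by positivity)
  have hAc : (A.card : ℝ) * τ ^ 2 ≤ D * N := card_large_Gam X mu D τ hτ hU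
  have hAc' : (A.card : ℝ) / N ≤ D / τ ^ 2 := by
    rw [div_le_div_iff₀ hNpos (by positivity)]
    exact hAc
  have h3 : (S.card : ℝ) ≤ 3 ^ Fintype.card I * (D / τ ^ 2) * Fintype.card (I → V) := by
    calc (S.card : ℝ) ≤ _ := hle
      _ = 3 ^ Fintype.card I * ((A.card : ℝ) / N) * Fintype.card (I → V) := by ring
      _ ≤ _ := by
        refine mul_le_mul_of_nonneg_right ?_ hNIpos.le
        exact mul_le_mul_of_nonneg_left hAc' (by positivity)
  have h4 : 2 * (3 ^ Fintype.card I * (D / τ ^ 2)) < 1 := by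
    rw [show 2 * ((3 : ℝ) ^ Fintype.card I * (D / τ ^ 2))
      = (2 * 3 ^ Fintype.card I * D) / τ ^ 2 by ring]
    rw [div_lt_one (by positivity)]
    exact h1
  calc 2 * (S.card : ℝ) ≤ 2 * (3 ^ Fintype.card I * (D / τ ^ 2) * Fintype.card (I → V)) := by
        linarith
    _ = 2 * (3 ^ Fintype.card I * (D / τ ^ 2)) * Fintype.card (I → V) := by ring
    _ < 1 * Fintype.card (I → V) := mul_lt_mul_of_pos_right h4 hNIpos
    _ = _ := one_mul _

include F in
/-- union bound over `J₁, J₂, v` and tuples -/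
theorem card_manybad (Bad : Finset I → (I → V) → Finset V)
    (hBad : ∀ (J : Finset I) (β β' : I → V), (∀ j ∈ J, β j = β' j) → Bad J β = Bad J β')
    (d1 d2 ρ : ℕ) (ε η : ℝ) (hη : 0 ≤ η) (hρ : (2 : ℝ) ^ ρ ≤ 2 * (ε * 2 ^ d2))
    (h2 : 2 * 4 ^ Fintype.card I * Fintype.card V * (2 ^ d2 * η) ^ ρ < 1)
    (S : Finset (I → V))
    (hS : ∀ β ∈ S, ∃ J1 J2 : Finset I, Disjoint J1 J2 ∧ J1.card = d1 ∧ J2.card = d2 ∧
      ∃ v : V, ((Bad J1 β).card : ℝ) ≤ η * Fintype.card V ∧
      ε * 2 ^ d2 < ((J2.powerset.filter (fun E => v + ∑ j ∈ E, β j ∈ Bad J1 β)).card : ℝ)) :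
    2 * (S.card : ℝ) < Fintype.card (I → V) := by
  classical
  set N : ℝ := (Fintype.card V : ℝ) with hN
  have hNpos : 0 < N := by
    rw [hN]
    have : 0 < Fintype.card V := Fintype.card_pos
    exact_mod_cast this
  have hNIpos : (0 : ℝ) < Fintype.card (I → V) := by
    have : 0 < Fintype.card (I → V) := Fintype.card_pos
    exact_mod_cast this
  set Q : Finset I → Finset I → V → (Fin ρ → Finset I) → Finset (I → V) := fun J1 J2 v e =>
    univ.filter (fun β : I → V => ((Bad J1 β).card : ℝ) ≤ η * N ∧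
        ∀ i, v + ∑ j ∈ e i, β j ∈ Bad J1 β) with hQ
  set idx : Finset ((Finset I × Finset I) × V) := univ with hidx
  set P : Finset I → Finset I → Prop := fun J1 J2 => Disjoint J1 J2 ∧ J1.card = d1 ∧ J2.card = d2
    with hP
  have hsub : S ⊆ idx.biUnion (fun p => if P p.1.1 p.1.2 then
      ((Fintype.piFinset (fun _ : Fin ρ => p.1.2.powerset)).filter
        (fun e => LinearIndependent F (fun i => ind F (e i)))).biUnion
        (fun e => Q p.1.1 p.1.2 p.2 e) else ∅) := by
    intro β hβ
    obtain ⟨J1, J2, hd, hc1, hc2, v, hb1, hb2⟩ := hS β hβ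
    rw [Finset.mem_biUnion]
    refine ⟨((J1, J2), v), Finset.mem_univ _, ?_⟩
    have hPP : P J1 J2 := ⟨hd, hc1, hc2⟩
    simp only [hPP, if_true]
    obtain ⟨e, he1, he2⟩ := exists_indep (F := F) ρ
      (J2.powerset.filter (fun E => v + ∑ j ∈ E, β j ∈ Bad J1 β)) (by
        have : (2 : ℝ) ^ ρ < 2 * ((J2.powerset.filter
          (fun E => v + ∑ j ∈ E, β j ∈ Bad J1 β)).card : ℝ) := by
          refine hρ.trans_lt ?_
          linarith
        exact_mod_cast this)
    rw [Finset.mem_biUnion]
    refine ⟨e, ?_, ?_⟩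
    · rw [Finset.mem_filter, Fintype.mem_piFinset]
      exact ⟨fun i => (Finset.mem_filter.mp (he1 i)).1, he2⟩
    · rw [hQ]
      simp only [Finset.mem_filter, Finset.mem_univ, true_and]
      exact ⟨hb1, fun i => (Finset.mem_filter.mp (he1 i)).2⟩
  have hone : ∀ p ∈ idx, (((if P p.1.1 p.1.2 then
      ((Fintype.piFinset (fun _ : Fin ρ => p.1.2.powerset)).filter
        (fun e => LinearIndependent F (fun i => ind F (e i)))).biUnion
        (fun e => Q p.1.1 p.1.2 p.2 e) else ∅ : Finset (I → V)).card : ℕ) : ℝ)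
        ≤ (2 ^ d2 * η) ^ ρ * Fintype.card (I → V) := by
    intro p _
    by_cases hPP : P p.1.1 p.1.2
    · rw [if_pos hPP]
      have hq : ∀ e ∈ ((Fintype.piFinset (fun _ : Fin ρ => p.1.2.powerset)).filter
        (fun e => LinearIndependent F (fun i => ind F (e i)))),
          ((Q p.1.1 p.1.2 p.2 e).card : ℝ) ≤ η ^ ρ * Fintype.card (I → V) := by
        intro e he
        rw [Finset.mem_filter, Fintype.mem_piFinset] at he
        have := card_tuple p.1.1 p.1.2 hPP.1 ρ e (fun i => Finset.mem_powerset.mp (he.1 i)) he.2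
          (Bad p.1.1) (hBad p.1.1) (η * N) (by positivity) p.2
        rw [mul_pow, ← hN] at this
        have h6 : ((Q p.1.1 p.1.2 p.2 e).card : ℝ) * N ^ ρ
            ≤ η ^ ρ * Fintype.card (I → V) * N ^ ρ := by
          calc _ ≤ _ := this
            _ = _ := by ring
        exact le_of_mul_le_mul_right h6 (by positivity)
      calc _ ≤ ∑ e ∈ ((Fintype.piFinset (fun _ : Fin ρ => p.1.2.powerset)).filter
            (fun e => LinearIndependent F (fun i => ind F (e i)))),
              ((Q p.1.1 p.1.2 p.2 e).card : ℝ) := by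
            exact_mod_cast Finset.card_biUnion_le
        _ ≤ ∑ e ∈ ((Fintype.piFinset (fun _ : Fin ρ => p.1.2.powerset)).filter
            (fun e => LinearIndependent F (fun i => ind F (e i)))),
              (η ^ ρ * Fintype.card (I → V)) := Finset.sum_le_sum hq
        _ = ((((Fintype.piFinset (fun _ : Fin ρ => p.1.2.powerset)).filter
            (fun e => LinearIndependent F (fun i => ind F (e i)))).card : ℕ) : ℝ)
              * (η ^ ρ * Fintype.card (I → V)) := by
            rw [Finset.sum_const, nsmul_eq_mul]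
        _ ≤ ((2 : ℝ) ^ d2) ^ ρ * (η ^ ρ * Fintype.card (I → V)) := by
            refine mul_le_mul_of_nonneg_right ?_ (by positivity)
            have h7 : ((Fintype.piFinset (fun _ : Fin ρ => p.1.2.powerset)).filter
              (fun e => LinearIndependent F (fun i => ind F (e i)))).card ≤ (2 ^ d2) ^ ρ := by
              calc _ ≤ _ := Finset.card_le_card (Finset.filter_subset _ _)
                _ = (p.1.2.powerset).card ^ ρ := by simp
                _ = (2 ^ d2) ^ ρ := by
                    rw [Finset.card_powerset, hPP.2.2]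
            exact_mod_cast h7
        _ = _ := by rw [mul_pow]; ring
    · rw [if_neg hPP]
      simp only [Finset.card_empty, Nat.cast_zero]
      positivity
  have hidxc : (idx.card : ℝ) = 4 ^ Fintype.card I * N := by
    rw [hidx, Finset.card_univ, Fintype.card_prod, Fintype.card_prod, Fintype.card_finset]
    push_cast
    rw [← mul_pow]
    norm_num [hN]
  have hle : (S.card : ℝ) ≤ 4 ^ Fintype.card I * N
      * ((2 ^ d2 * η) ^ ρ * Fintype.card (I → V)) := by
    have hnat := (Finset.card_le_card hsub).trans Finset.card_biUnion_le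
    calc (S.card : ℝ) ≤ ∑ p ∈ idx, (((if P p.1.1 p.1.2 then
          ((Fintype.piFinset (fun _ : Fin ρ => p.1.2.powerset)).filter
          (fun e => LinearIndependent F (fun i => ind F (e i)))).biUnion
          (fun e => Q p.1.1 p.1.2 p.2 e) else ∅ : Finset (I → V)).card : ℕ) : ℝ) := by
            exact_mod_cast hnat
      _ ≤ ∑ p ∈ idx, ((2 ^ d2 * η) ^ ρ * Fintype.card (I → V)) := Finset.sum_le_sum hone
      _ = _ := by rw [Finset.sum_const, nsmul_eq_mul, hidxc]
  calc 2 * (S.card : ℝ) ≤ 2 * (4 ^ Fintype.card I * N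
      * ((2 ^ d2 * η) ^ ρ * Fintype.card (I → V))) := by linarith
    _ = (2 * 4 ^ Fintype.card I * N * (2 ^ d2 * η) ^ ρ) * Fintype.card (I → V) := by ring
    _ < 1 * Fintype.card (I → V) := mul_lt_mul_of_pos_right h2 hNIpos
    _ = _ := one_mul _

include F in
/-- **Block G1-B (cube part).** -/
theorem cube_part (X Y : V → ℝ) (hY0 : ∀ v, 0 ≤ Y v) (hYX : ∀ v, Y v ≤ X v)
    (mu m2 κ D τ ε η : ℝ) (hε : 0 < ε) (hε1 : ε ≤ 1) (hτ : 0 < τ)
    (hmu : ∑ v, X v = mu * Fintype.card V)
    (hm2 : ∑ v, X v ^ 2 ≤ m2 * Fintype.card V)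
    (hκ : ∑ v, Y v ≤ κ * Fintype.card V)
    (hU : ∑ u, (Gam X u - mu ^ 2 * Fintype.card V) ^ 2 ≤ D * (Fintype.card V : ℝ) ^ 3)
    (d1 d2 ρ : ℕ) (hρ : (2 : ℝ) ^ ρ ≤ 2 * (ε * 2 ^ d2))
    (hη : (m2 / 2 ^ d1 + τ) / ε ^ 2 + κ / ε ≤ η)
    (h1 : 2 * 3 ^ Fintype.card I * D < τ ^ 2)
    (h2 : 2 * 4 ^ Fintype.card I * Fintype.card V * (2 ^ d2 * η) ^ ρ < 1) :
    ∃ β : I → V, ∀ J : Finset I, d1 + d2 ≤ J.card → ∀ v : V,
      (1 - ε) * (mu - 2 * ε) * 2 ^ J.card
        ≤ ∑ E ∈ J.powerset, (X (v + ∑ j ∈ E, β j) - Y (v + ∑ j ∈ E, β j)) := by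
  classical
  set N : ℝ := (Fintype.card V : ℝ) with hN
  have hNpos : 0 < N := by
    rw [hN]
    have : 0 < Fintype.card V := Fintype.card_pos
    exact_mod_cast this
  have hm20 : 0 ≤ m2 := by
    by_contra hcon
    push Not at hcon
    have h3 : (0 : ℝ) ≤ ∑ v, X v ^ 2 := Finset.sum_nonneg (fun v _ => sq_nonneg _)
    nlinarith
  have hκ0 : 0 ≤ κ := by
    by_contra hcon
    push Not at hcon
    have h3 : (0 : ℝ) ≤ ∑ v, Y v := Finset.sum_nonneg (fun v _ => hY0 v)
    nlinarith
  have hη0 : 0 ≤ η := le_trans (by positivity) hη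
  -- the two exceptional sets
  set S1 : Finset (I → V) := univ.filter (fun β => ∃ ζ : I → F,
      (∀ j, ζ j = 0 ∨ ζ j = 1 ∨ ζ j = -1) ∧ ζ ≠ 0 ∧
      (mu ^ 2 + τ) * N < Gam X (∑ j, ζ j • β j)) with hS1
  set S2 : Finset (I → V) := univ.filter (fun β => ∃ J1 J2 : Finset I, Disjoint J1 J2 ∧
      J1.card = d1 ∧ J2.card = d2 ∧
      ∃ v : V, ((BadS X Y mu ε J1 β).card : ℝ) ≤ η * N ∧
      ε * 2 ^ d2 < ((J2.powerset.filter
        (fun E => v + ∑ j ∈ E, β j ∈ BadS X Y mu ε J1 β)).card : ℝ)) with hS2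
  have c1 : 2 * (S1.card : ℝ) < Fintype.card (I → V) := by
    refine card_notgood F X mu D τ hτ hU h1 S1 ?_
    intro β hβ
    rw [hS1, Finset.mem_filter] at hβ
    exact hβ.2
  have c2 : 2 * (S2.card : ℝ) < Fintype.card (I → V) := by
    refine card_manybad F (fun J β => BadS X Y mu ε J β)
      (fun J β β' h => BadS_congr X Y mu ε J β β' h) d1 d2 ρ ε η hη0 hρ h2 S2 ?_
    intro β hβ
    rw [hS2, Finset.mem_filter] at hβ
    exact hβ.2
  have hex : ∃ β : I → V, β ∉ S1 ∪ S2 := by
    by_contra hcon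
    push Not at hcon
    have h3 : Fintype.card (I → V) ≤ (S1 ∪ S2).card := by
      rw [← Finset.card_univ]
      exact Finset.card_le_card (fun β _ => hcon β)
    have h4 : (S1 ∪ S2).card ≤ S1.card + S2.card := Finset.card_union_le _ _
    have h5 : (Fintype.card (I → V) : ℝ) ≤ (S1.card : ℝ) + S2.card := by
      exact_mod_cast h3.trans h4
    linarith
  obtain ⟨β, hβ⟩ := hex
  rw [Finset.mem_union, not_or] at hβ
  obtain ⟨hβ1, hβ2⟩ := hβ
  rw [hS1, Finset.mem_filter] at hβ1
  rw [hS2, Finset.mem_filter] at hβ2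
  have hgood : ∀ ζ : I → F, (∀ j, ζ j = 0 ∨ ζ j = 1 ∨ ζ j = -1) → ζ ≠ 0 →
      Gam X (∑ j, ζ j • β j) ≤ (mu ^ 2 + τ) * N := by
    intro ζ hζ1 hζ2
    by_contra hcon
    push Not at hcon
    exact hβ1 ⟨Finset.mem_univ _, ζ, hζ1, hζ2, hcon⟩
  refine ⟨β, ?_⟩
  intro J hJ v
  have hnn : ∀ x, 0 ≤ X x - Y x := fun x => sub_nonneg.mpr (hYX x)
  by_cases hmu2 : mu - 2 * ε < 0
  · have ha : (1 - ε) * (mu - 2 * ε) * 2 ^ J.card ≤ 0 := by
      have : 0 ≤ (1 - ε) * (-(mu - 2 * ε)) * 2 ^ J.card := by
        have h8 : 0 ≤ 1 - ε := by linarith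
        have h9 : 0 ≤ -(mu - 2 * ε) := by linarith
        positivity
      nlinarith
    exact ha.trans (Finset.sum_nonneg (fun E _ => hnn _))
  push Not at hmu2
  obtain ⟨J12, hJ12, hc12⟩ := Finset.exists_subset_card_eq hJ
  obtain ⟨J1, hJ1, hc1⟩ := Finset.exists_subset_card_eq (show d1 ≤ J12.card by omega)
  set J2 := J12 \ J1 with hJ2
  have hc2 : J2.card = d2 := by
    rw [hJ2, Finset.card_sdiff_of_subset hJ1, hc12, hc1]; omega
  have hdis12 : Disjoint J1 J2 := Finset.disjoint_sdiff
  set J3 := J \ J12 with hJ3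
  have hdis3 : Disjoint J12 J3 := Finset.disjoint_sdiff
  have hJ12u : J1 ∪ J2 = J12 := Finset.union_sdiff_of_subset hJ1
  have hJu : J12 ∪ J3 = J := Finset.union_sdiff_of_subset hJ12
  have hc3 : J3.card + (d1 + d2) = J.card := by
    rw [hJ3, Finset.card_sdiff_of_subset hJ12, hc12]; omega
  set W : V → ℝ := fun x => X x - Y x with hW
  have hinner : ∀ x : V, (1 - ε) * (mu - 2 * ε) * 2 ^ (d1 + d2) ≤ cs W β J12 x := by
    intro x
    rw [← hJ12u, cs_union W β J1 J2 hdis12 x]
    have hbadcard : ((BadS X Y mu ε J1 β).card : ℝ) ≤ η * N := by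
      refine (card_BadS F X Y hY0 mu m2 κ τ ε hε hτ hmu hm2 hκ β hgood J1).trans ?_
      rw [hc1]
      exact mul_le_mul_of_nonneg_right hη hNpos.le
    have hfew : ((J2.powerset.filter
        (fun E => x + ∑ j ∈ E, β j ∈ BadS X Y mu ε J1 β)).card : ℝ) ≤ ε * 2 ^ d2 := by
      by_contra hcon
      push Not at hcon
      exact hβ2 ⟨Finset.mem_univ _, J1, J2, hdis12, hc1, hc2, x, hbadcard, hcon⟩
    set Gd := J2.powerset.filter (fun E => ¬ (x + ∑ j ∈ E, β j ∈ BadS X Y mu ε J1 β)) with hGd
    have hGdc : (1 - ε) * 2 ^ d2 ≤ (Gd.card : ℝ) := by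
      have : (J2.powerset.filter
        (fun E => x + ∑ j ∈ E, β j ∈ BadS X Y mu ε J1 β)).card + Gd.card = 2 ^ d2 := by
        rw [hGd, Finset.card_filter_add_card_filter_not, Finset.card_powerset, hc2]
      have h3 : (((J2.powerset.filter
        (fun E => x + ∑ j ∈ E, β j ∈ BadS X Y mu ε J1 β)).card : ℕ) : ℝ) + (Gd.card : ℝ)
          = 2 ^ d2 := by exact_mod_cast this
      linarith
    have hval : ∀ E ∈ Gd, (mu - 2 * ε) * 2 ^ d1 ≤ cs W β J1 (x + ∑ j ∈ E, β j) := by
      intro E hE
      rw [hGd, Finset.mem_filter] at hE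
      have h3 := hE.2
      unfold BadS at h3
      rw [Finset.mem_filter] at h3
      push Not at h3
      have h4 := h3 (Finset.mem_univ _)
      have h5 : cs W β J1 (x + ∑ j ∈ E, β j)
          = cs X β J1 (x + ∑ j ∈ E, β j) - cs Y β J1 (x + ∑ j ∈ E, β j) := by
        unfold cs
        rw [← Finset.sum_sub_distrib]
      rw [h5]
      rw [hc1] at h4
      nlinarith [h4.1, h4.2]
    calc (1 - ε) * (mu - 2 * ε) * 2 ^ (d1 + d2)
        = ((1 - ε) * 2 ^ d2) * ((mu - 2 * ε) * 2 ^ d1) := by rw [pow_add]; ring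
      _ ≤ (Gd.card : ℝ) * ((mu - 2 * ε) * 2 ^ d1) :=
          mul_le_mul_of_nonneg_right hGdc (by positivity)
      _ = ∑ E ∈ Gd, (mu - 2 * ε) * 2 ^ d1 := by rw [Finset.sum_const, nsmul_eq_mul]
      _ ≤ ∑ E ∈ Gd, cs W β J1 (x + ∑ j ∈ E, β j) := Finset.sum_le_sum hval
      _ ≤ ∑ E ∈ J2.powerset, cs W β J1 (x + ∑ j ∈ E, β j) :=
          Finset.sum_le_sum_of_subset_of_nonneg (Finset.filter_subset _ _)
            (fun E _ _ => Finset.sum_nonneg (fun E' _ => hnn _))
  have hfin : (1 - ε) * (mu - 2 * ε) * 2 ^ J.card ≤ cs W β J v := by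
    rw [← hJu, cs_union W β J12 J3 hdis3 v, hJu]
    calc (1 - ε) * (mu - 2 * ε) * 2 ^ J.card
        = 2 ^ J3.card * ((1 - ε) * (mu - 2 * ε) * 2 ^ (d1 + d2)) := by
          rw [← hc3, pow_add]; ring
      _ = ∑ E ∈ J3.powerset, ((1 - ε) * (mu - 2 * ε) * 2 ^ (d1 + d2)) := by
          rw [Finset.sum_const, Finset.card_powerset, nsmul_eq_mul]; push_cast; rfl
      _ ≤ _ := Finset.sum_le_sum (fun E _ => hinner _)
  exact hfin

end Final

end Vale.Agent.P230.G.Cube
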