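import Vale.Agent.P230.G.Up
import Vale.Agent.P230.G.CubePart
import Vale.Agent.P230.G1.A

/-! P230, block G1 assembled (helper17): the abstract block lemma, in terms of `Xcap`. -/

namespace Vale.Agent.P230.G

open Finset

/-- transfer of a cube sum from `↥B` to `ι` -/
theorem sum_powerset_subtype {ι V : Type*} [DecidableEq ι] [AddCommGroup V] (B J : Finset ι)
    (hJ : J ⊆ B) (β : {j // j ∈ B} → V) (f : V → ℝ) :
    ∑ E ∈ J.powerset, f (∑ j ∈ E, if h : j ∈ B then β ⟨j, h⟩ else 0)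
      = ∑ E ∈ (J.subtype (fun j => j ∈ B)).powerset, f (∑ j ∈ E, β j) := by
  refine Finset.sum_nbij' (fun E => E.subtype (fun j => j ∈ B))
    (fun E => E.map (Function.Embedding.subtype _)) ?_ ?_ ?_ ?_ ?_
  · intro E hE
    rw [Finset.mem_powerset] at hE ⊢
    exact Finset.subtype_mono hE
  · intro E hE
    rw [Finset.mem_powerset] at hE ⊢
    intro x hx
    rw [Finset.mem_map] at hx
    obtain ⟨y, hy, rfl⟩ := hx
    have := hE hy
    rw [Finset.mem_subtype] at this
    exact this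
  · intro E hE
    rw [Finset.mem_powerset] at hE
    refine Finset.subtype_map_of_mem ?_
    intro x hx
    exact hJ (hE hx)
  · intro E _
    ext x
    simp
  · intro E hE
    rw [Finset.mem_powerset] at hE
    congr 1
    have h1 : E = (E.subtype (fun j => j ∈ B)).map (Function.Embedding.subtype _) :=
      (Finset.subtype_map_of_mem (fun x hx => hJ (hE hx))).symm
    conv_lhs => rw [h1]
    rw [Finset.sum_map]
    refine Finset.sum_congr rfl ?_
    intro x _
    rw [dif_pos (show (Function.Embedding.subtype _) x ∈ B from x.2)]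
    rfl

variable {S C : Type*} [Fintype S] [Fintype C] [DecidableEq S] [DecidableEq C] {p : ℕ}

omit [DecidableEq C] in
theorem X_eq_Xcap [NeZero p] (Bm : Matrix S C (ZMod p)) (g : (S ⊕ C → ZMod p) → ℝ)
    (v : S ⊕ C → ZMod p) : G1.X Bm g v = Xcap p g Bm v := by
  classical
  unfold G1.X Xcap
  by_cases h : ∃! k : S → ZMod p, g (v + Sum.elim k (Matrix.vecMul k Bm)) ≠ 0
  · rw [dif_pos h]
    have huniq : ∀ k, g (v + Sum.elim k (Matrix.vecMul k Bm)) ≠ 0 → k = h.choose :=
      fun k hk => h.unique hk h.choose_spec.1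
    have hset : (univ.filter fun k : S → ZMod p => g (v + G1.cw Bm k) ≠ 0) = {h.choose} := by
      ext k
      rw [Finset.mem_filter, Finset.mem_singleton]
      constructor
      · intro hk; exact huniq k hk.2
      · rintro rfl; exact ⟨Finset.mem_univ _, h.choose_spec.1⟩
    have hN : G1.Nk Bm g v = 1 := by
      unfold G1.Nk
      rw [hset, Finset.card_singleton]
    rw [if_pos hN]
    unfold G1.X1
    congr 1
    rw [Finset.sum_eq_single h.choose]
    · rfl
    · intro k _ hk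
      by_contra hne
      exact hk (huniq k hne)
    · intro hn; exact absurd (Finset.mem_univ _) hn
  · rw [dif_neg h]
    have hN : ¬ G1.Nk Bm g v = 1 := by
      intro hN
      unfold G1.Nk at hN
      rw [Finset.card_eq_one] at hN
      obtain ⟨k, hk⟩ := hN
      apply h
      refine ⟨k, ?_, ?_⟩
      · have : k ∈ (univ.filter fun k : S → ZMod p => g (v + G1.cw Bm k) ≠ 0) := by
          rw [hk]; exact Finset.mem_singleton_self k
        exact (Finset.mem_filter.mp this).2
      · intro k' hk'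
        have : k' ∈ (univ.filter fun k : S → ZMod p => g (v + G1.cw Bm k) ≠ 0) :=
          Finset.mem_filter.mpr ⟨Finset.mem_univ _, hk'⟩
        rw [hk] at this
        exact Finset.mem_singleton.mp this
    rw [if_neg hN]

/-- **Block lemma G1** (random systematic code + random cube directions). -/
theorem block_lemma {ι : Type*} [DecidableEq ι] [Fact p.Prime] (B : Finset ι)
    (g : (S ⊕ C → ZMod p) → ℝ) (hg : ∀ v, 0 ≤ g v) (b mu H0 a ε τ η : ℝ)
    (hb : ∀ v, g v ≤ b) (hmu : ∑ v, g v = mu) (hmu0 : 0 < mu)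
    (ha : ((univ.filter fun v => g v ≠ 0).card : ℝ) ≤ a)
    (hH : ∑ v1, ∑ v2, ∑ v3, g v1 * g v2 * g v3 * g (v2 + v3 - v1) ≤ H0)
    (hε : 0 < ε) (hε1 : ε ≤ 1) (hτ : 0 < τ) (d1 d2 ρ : ℕ)
    (hρ : (2 : ℝ) ^ ρ ≤ 2 * (ε * 2 ^ d2))
    (hη : ((p : ℝ) ^ Fintype.card C * b * mu * (1 + 4 * a / (p : ℝ) ^ Fintype.card C) / 2 ^ d1
        + τ) / ε ^ 2 + 4 * mu * a / (p : ℝ) ^ Fintype.card C / ε ≤ η)
    (h1 : 8 * 3 ^ B.card * (p : ℝ) ^ Fintype.card C * H0 < τ ^ 2)
    (h2 : 2 * 4 ^ B.card * (p : ℝ) ^ (Fintype.card S + Fintype.card C) * (2 ^ d2 * η) ^ ρ < 1) :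
    ∃ (Bm : Matrix S C (ZMod p)) (β : ι → (S ⊕ C → ZMod p)),
      ∀ v : S ⊕ C → ZMod p, ∀ J ⊆ B, d1 + d2 ≤ J.card →
        (1 - ε) * (mu - 2 * ε) * 2 ^ J.card
          ≤ ∑ E ∈ J.powerset, Xcap p g Bm (v + ∑ j ∈ E, β j) := by
  classical
  obtain ⟨Bm, e1, e2, e3, e4⟩ := G1.exists_code g hg b mu H0 a hb hmu hmu0 ha hH
  have hP : (0 : ℝ) < p := by
    have := (Fact.out : p.Prime).pos
    exact_mod_cast this
  have hN : (Fintype.card (S ⊕ C → ZMod p) : ℝ)
      = (p : ℝ) ^ (Fintype.card S + Fintype.card C) := G1.card_phase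
  set N : ℝ := (p : ℝ) ^ (Fintype.card S + Fintype.card C) with hNdef
  have hNpos : 0 < N := by positivity
  have hcI : Fintype.card {j // j ∈ B} = B.card := Fintype.card_coe B
  obtain ⟨β, hβ⟩ := Cube.cube_part (ZMod p) (I := {j // j ∈ B}) (G1.X1 Bm g)
    (fun v => G1.X1 Bm g v - G1.X Bm g v)
    (fun v => by
      unfold G1.X
      split_ifs
      · simp
      · simpa using G1.X1_nonneg Bm hg v)
    (fun v => by
      have := G1.X_nonneg Bm hg v
      linarith)
    mu ((p : ℝ) ^ Fintype.card C * b * mu * (1 + 4 * a / (p : ℝ) ^ Fintype.card C))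
    (4 * mu * a / (p : ℝ) ^ Fintype.card C) (4 * (p : ℝ) ^ Fintype.card C * H0) τ ε η
    hε hε1 hτ
    (by rw [hN, e1]; ring)
    (by rw [hN]; linarith [e4])
    (by rw [hN]; linarith [e3])
    (by
      rw [hN]
      have : ∀ u, (Cube.Gam (G1.X1 Bm g) u - mu ^ 2 * N) ^ 2
          = N ^ 2 * ((∑ v, G1.X1 Bm g v * G1.X1 Bm g (v + u)) / N - mu ^ 2) ^ 2 := by
        intro u
        unfold Cube.Gam
        field_simp
      simp_rw [this]
      rw [← Finset.mul_sum]
      calc _ ≤ N ^ 2 * (N * (4 * (p : ℝ) ^ Fintype.card C * H0)) :=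
            mul_le_mul_of_nonneg_left e2 (by positivity)
        _ = _ := by ring)
    d1 d2 ρ hρ hη
    (by rw [hcI]; calc _ = 8 * 3 ^ B.card * (p : ℝ) ^ Fintype.card C * H0 := by ring
          _ < _ := h1)
    (by rw [hcI, hN]; exact h2)
  refine ⟨Bm, fun j => if h : j ∈ B then β ⟨j, h⟩ else 0, ?_⟩
  intro v J hJ hcard
  have hJc : (J.subtype (fun j => j ∈ B)).card = J.card := by
    rw [← Finset.card_map (Function.Embedding.subtype _),
      Finset.subtype_map_of_mem (fun x hx => hJ hx)]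
  have key := hβ (J.subtype (fun j => j ∈ B)) (by rw [hJc]; exact hcard) v
  rw [hJc] at key
  rw [sum_powerset_subtype B J hJ β (fun x => Xcap p g Bm (v + x))]
  refine key.trans (le_of_eq ?_)
  refine Finset.sum_congr rfl ?_
  intro E _
  rw [← X_eq_Xcap]
  ring

end Vale.Agent.P230.G
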