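import Vale.Agent.P230.G.States
import Vale.Agent.P230.H852.Typ

/-!
# P230: the captured mass `gt` of H852 gives `Typ`
-/

namespace Vale.Agent.P230.G

open Finset H852

variable {κ : Type*} [Fintype κ] [DecidableEq κ] {p : ℕ}

theorem typ_of_gt [NeZero p] {A w : ℝ} (hA : 0 ≤ A) (b : κ → Bool) (h lam lo hi : ℝ) (D : ℕ)
    (θ : ℝ) (hθ : 0 ≤ θ)
    (hround : (Fintype.card κ : ℝ) * (2 * A * del A p + del A p ^ 2) ≤ 1)
    (hθ' : θ ≤ (del A p * NA A p / Real.sqrt (2 * Real.pi)) ^ (Fintype.card κ) *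
      Real.exp (-((Fintype.card κ : ℝ) * (2 * A * del A p + del A p ^ 2)) / 2)) :
    Typ p (del A p) (Finset.univ.filter fun i => b i = true) D ((Fintype.card κ : ℝ) - lo + 1)
      (hi - (Fintype.card κ : ℝ) + 1) (fun u : κ → ZMod p => θ * gt A w b h lam lo hi D u) := by
  classical
  set Om : Finset ((κ → ZMod p) × (κ → St)) :=
    Finset.univ.filter (fun x => Typp A w b h lam lo hi D x.1 x.2) with hOm
  have hmem : ∀ x, x ∈ Om ↔ Typp A w b h lam lo hi D x.1 x.2 := by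
    intro x
    rw [hOm, Finset.mem_filter]
    simp only [Finset.mem_univ, true_and]
  have h1 := typ_of_states (w := w) hA b Om D lo hi θ hθ
    (fun x hx => by
      refine le_trans ((hmem x).1 hx).2.2.1 (le_of_eq ?_)
      unfold frs
      congr!)
    (fun x hx => ((hmem x).1 hx).2.2.2.1) (fun x hx => ((hmem x).1 hx).2.2.2.2) hround hθ'
  convert h1 using 3 with u
  unfold gt gOm
  rw [Finset.sum_filter]
  apply Finset.sum_congr rfl
  intro σ _
  simp only [hmem]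
  congr!

/-- a convenient value of `θ`: if `1 - ε₁ ≤ δ N_A / √(2π)` then
`θ = 1 - card κ * ε₁ - card κ * (2 A δ + δ²) / 2` is admissible -/
theorem theta_ok {A ε₁ : ℝ} {p R : ℕ} (hA : 0 ≤ A) (h0 : 0 ≤ ε₁) (h1 : ε₁ ≤ 1)
    (hN : 1 - ε₁ ≤ del A p * NA A p / Real.sqrt (2 * Real.pi)) :
    1 - R * ε₁ - R * (2 * A * del A p + del A p ^ 2) / 2 ≤
      (del A p * NA A p / Real.sqrt (2 * Real.pi)) ^ R *
      Real.exp (-((R : ℝ) * (2 * A * del A p + del A p ^ 2)) / 2) := by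
  have hd : 0 ≤ del A p := by unfold del; positivity
  set x : ℝ := (R : ℝ) * (2 * A * del A p + del A p ^ 2) / 2 with hx
  have hx0 : 0 ≤ x := by positivity
  have h2 : 1 - R * ε₁ ≤ (1 - ε₁) ^ R := by
    have := one_add_mul_le_pow (a := -ε₁) (by linarith) R
    calc 1 - R * ε₁ = 1 + R * (-ε₁) := by ring
      _ ≤ (1 + -ε₁) ^ R := this
      _ = _ := by ring_nf
  have h3 : (1 - ε₁) ^ R ≤ (del A p * NA A p / Real.sqrt (2 * Real.pi)) ^ R :=
    pow_le_pow_left₀ (by linarith) hN R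
  have h4 : 1 - x ≤ Real.exp (-x) := by
    have := Real.add_one_le_exp (-x)
    linarith
  have h5 : Real.exp (-x) ≤ 1 := by
    rw [Real.exp_le_one_iff]
    linarith
  have h6 : -((R : ℝ) * (2 * A * del A p + del A p ^ 2)) / 2 = -x := by rw [hx]; ring
  rw [h6]
  have h7 : 0 ≤ (1 - ε₁) ^ R := pow_nonneg (by linarith) R
  have h8 : (1 - ε₁) ^ R ≤ 1 := pow_le_one₀ (by linarith) (by linarith)
  calc 1 - R * ε₁ - x ≤ (1 - ε₁) ^ R - x := by linarith
    _ ≤ (1 - ε₁) ^ R * (1 - x) := by nlinarith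
    _ ≤ (1 - ε₁) ^ R * Real.exp (-x) := mul_le_mul_of_nonneg_left h4 h7
    _ ≤ _ := mul_le_mul_of_nonneg_right h3 (Real.exp_pos _).le

theorem Xcap_smul {S C : Type*} [Fintype S] [Fintype C] (p : ℕ) (g : (S ⊕ C → ZMod p) → ℝ)
    (θ : ℝ) (Bm : Matrix S C (ZMod p)) (v : S ⊕ C → ZMod p) :
    Xcap p (fun u => θ * g u) Bm v = θ * Xcap p g Bm v := by
  by_cases hθ : θ = 0
  · subst hθ
    unfold Xcap
    rw [dif_neg]
    · ring
    · rintro ⟨k, hk, _⟩
      simp at hk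
  · have h1 : ∀ k : S → ZMod p, (θ * g (v + Sum.elim k (Matrix.vecMul k Bm)) ≠ 0) ↔
        (g (v + Sum.elim k (Matrix.vecMul k Bm)) ≠ 0) := by
      intro k
      simp only [ne_eq, mul_eq_zero, hθ, false_or]
    unfold Xcap
    by_cases h : ∃! k : S → ZMod p, g (v + Sum.elim k (Matrix.vecMul k Bm)) ≠ 0
    · have h' : ∃! k : S → ZMod p, θ * g (v + Sum.elim k (Matrix.vecMul k Bm)) ≠ 0 := by
        obtain ⟨k, hk, hu⟩ := h
        exact ⟨k, (h1 k).2 hk, fun k' hk' => hu k' ((h1 k').1 hk')⟩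
      rw [dif_pos h, dif_pos h']
      have he : h'.choose = h.choose :=
        h.unique ((h1 _).1 h'.choose_spec.1) h.choose_spec.1
      rw [he]
      ring
    · have h' : ¬ ∃! k : S → ZMod p, θ * g (v + Sum.elim k (Matrix.vecMul k Bm)) ≠ 0 := by
        rintro ⟨k, hk, hu⟩
        exact h ⟨k, (h1 k).1 hk, fun k' hk' => hu k' ((h1 k').2 hk')⟩
      rw [dif_neg h, dif_neg h', mul_zero]

end Vale.Agent.P230.G
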