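import Vale.Agent.P230.G.Up

/-!
# P230, part G5: composition of `Up` with a block, and the block step
-/

namespace Vale.Agent.P230.G

open Finset

set_option linter.unusedSectionVars false

section compose

variable {ι κ : Type*} [Fintype ι] [DecidableEq ι] [Fintype κ] [DecidableEq κ]

theorem pos_fromBlocks (K : Matrix κ κ ℝ) (Cm : Matrix κ ι ℝ) (M : Matrix ι ι ℝ)
    (y : κ ⊕ ι → ℝ) (ζ : κ → ℤ) (z : ι → ℤ) :
    pos (Matrix.fromBlocks K Cm 0 M) y (Sum.elim ζ z) =
      Sum.elim (pos K (fun i => y (Sum.inl i) + Cm.mulVec (fun a => (z a : ℝ)) i) ζ)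
        (pos M (fun i => y (Sum.inr i)) z) := by
  have h : (fun a => ((Sum.elim ζ z a : ℤ) : ℝ)) =
      Sum.elim (fun a => (ζ a : ℝ)) (fun a => (z a : ℝ)) := by
    funext a
    cases a <;> rfl
  funext a
  unfold pos
  rw [h, Matrix.fromBlocks_mulVec]
  cases a with
  | inl a =>
    simp only [Sum.elim_inl, Sum.elim_comp_inl, Sum.elim_comp_inr, Pi.add_apply]
    ring
  | inr a =>
    simp only [Sum.elim_inr, Sum.elim_comp_inl, Sum.elim_comp_inr, Matrix.zero_mulVec, zero_add]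

theorem nsq_elim (a : κ → ℝ) (b : ι → ℝ) : nsq (Sum.elim a b) = nsq a + nsq b := by
  unfold nsq
  rw [Fintype.sum_sum_type]
  rfl

theorem gw_fromBlocks (K : Matrix κ κ ℝ) (Cm : Matrix κ ι ℝ) (M : Matrix ι ι ℝ)
    (y : κ ⊕ ι → ℝ) (ζ : κ → ℤ) (z : ι → ℤ) :
    gw (Matrix.fromBlocks K Cm 0 M) y (Sum.elim ζ z) =
      gw M (fun i => y (Sum.inr i)) z *
        gw K (fun i => y (Sum.inl i) + Cm.mulVec (fun a => (z a : ℝ)) i) ζ := by
  unfold gw
  rw [pos_fromBlocks, nsq_elim, Matrix.det_fromBlocks_zero₂₁, abs_mul, Fintype.card_sum, pow_add,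
    neg_add, add_div, Real.exp_add]
  ring

theorem gw_nonneg (M : Matrix ι ι ℝ) (y : ι → ℝ) (z : ι → ℤ) : 0 ≤ gw M y z := by
  unfold gw
  positivity

theorem powerset_map' {α β : Type*} (f : α ↪ β) (J : Finset α) :
    (J.map f).powerset = J.powerset.map ⟨Finset.map f, Finset.map_injective f⟩ := by
  ext E
  simp only [Finset.mem_powerset, Finset.mem_map, Function.Embedding.coeFn_mk,
    Finset.subset_map_iff]
  constructor
  · rintro ⟨u, hu, rfl⟩
    exact ⟨u, hu, rfl⟩
  · rintro ⟨u, hu, rfl⟩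
    exact ⟨u, hu, rfl⟩

/-- one-phase block data for all upper nodes -/
def BlockAt (levκ : κ → ℕ) (K : Matrix κ κ ℝ) (Cm : Matrix κ ι ℝ) (Bκ : Finset κ) (D' : ℝ) (d' : ℕ)
    (slo' shi' : ℝ) (B : Finset ι) (d : ℕ) (μ' : ℝ) (yκ : κ → ℝ) : Prop :=
  ∃ (Q : (ι → ℤ) → Finset (κ → ℤ)) (w : (ι → ℤ) → (κ → ℤ) → ℝ) (Xc : (ι → ℤ) → ℝ),
    (∀ z, TreeLike levκ D' (Q z)) ∧
    (∀ z, ∀ ζ ∈ Q z, 0 ≤ w z ζ ∧
      w z ζ ≤ gw K (fun i => yκ i + Cm.mulVec (fun a => (z a : ℝ)) i) ζ ∧
      (Fintype.card κ : ℝ) - slo' ≤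
        nsq (pos K (fun i => yκ i + Cm.mulVec (fun a => (z a : ℝ)) i) ζ) ∧
      nsq (pos K (fun i => yκ i + Cm.mulVec (fun a => (z a : ℝ)) i) ζ) ≤
        (Fintype.card κ : ℝ) + shi') ∧
    (∀ z, 0 ≤ Xc z) ∧ CA 1 B d μ' Xc ∧
    ∀ (z : ι → ℤ) (μ : ℝ) (X : (κ → ℤ) → ℝ), 0 ≤ μ → (∀ ζ, 0 ≤ X ζ) → CA 1 Bκ d' μ X →
      μ * Xc z ≤ ∑ ζ ∈ Q z, w z ζ * X ζ

theorem Up.compose {lev : ι → ℕ} {M : Matrix ι ι ℝ} {B : Finset ι} {D : ℝ} {d : ℕ}
    {c slo shi : ℝ} (hUp : Up lev M B D d c slo shi) (levκ : κ → ℕ) (L : ℕ)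
    (hlev : ∀ a, levκ a < L) (K : Matrix κ κ ℝ) (Cm : Matrix κ ι ℝ) (Bκ : Finset κ)
    (d' : ℕ) (μ' D' slo' shi' : ℝ) (hμ' : 0 ≤ μ')
    (hblock : ∀ yκ : κ → ℝ, BlockAt levκ K Cm Bκ D' d' slo' shi' B d μ' yκ) :
    Up (Sum.elim levκ (fun a => lev a + L)) (Matrix.fromBlocks K Cm 0 M)
      (Bκ.map ⟨Sum.inl, Sum.inl_injective⟩) (max D D') d' (c * μ') (slo + slo') (shi + shi') := by
  classical
  intro y
  obtain ⟨P, w, hT, hw, hc⟩ := hUp (fun i => y (Sum.inr i))
  obtain ⟨Q, wκ, Xc, hTκ, hwκ, hXc0, hXcCA, hcκ⟩ := hblock (fun i => y (Sum.inl i))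
  let emb : (Σ _ : ι → ℤ, κ → ℤ) ↪ (κ ⊕ ι → ℤ) :=
    ⟨fun x => Sum.elim x.2 x.1, by
      rintro ⟨z, ζ⟩ ⟨z', ζ'⟩ h
      have h1 : z = z' := by
        funext a
        have := congrFun h (Sum.inr a)
        simpa using this
      have h2 : ζ = ζ' := by
        funext a
        have := congrFun h (Sum.inl a)
        simpa using this
      subst h1 h2
      rfl⟩
  have hmem : ∀ x : κ ⊕ ι → ℤ, x ∈ (P.sigma Q).map emb →
      ∃ z ∈ P, ∃ ζ ∈ Q z, x = Sum.elim ζ z := by
    intro x hx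
    rw [Finset.mem_map] at hx
    obtain ⟨⟨z, ζ⟩, hzζ, rfl⟩ := hx
    rw [Finset.mem_sigma] at hzζ
    exact ⟨z, hzζ.1, ζ, hzζ.2, rfl⟩
  refine ⟨(P.sigma Q).map emb, fun x => w (fun a => x (Sum.inr a)) *
    wκ (fun a => x (Sum.inr a)) (fun a => x (Sum.inl a)), ?_, ?_, ?_⟩
  · intro a x hx x' hx' x'' hx'' h1 h2
    obtain ⟨z, hz, ζ, hζ, rfl⟩ := hmem x hx
    obtain ⟨z', hz', ζ', hζ', rfl⟩ := hmem x' hx'
    obtain ⟨z'', hz'', ζ'', hζ'', rfl⟩ := hmem x'' hx''
    cases a with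
    | inl a =>
      have e1 : z = z' := by
        funext b
        have := h1 (Sum.inr b) (by
          simp only [Sum.elim_inl, Sum.elim_inr]
          have := hlev a
          omega)
        simpa using this
      have e2 : z = z'' := by
        funext b
        have := h2 (Sum.inr b) (by
          simp only [Sum.elim_inl, Sum.elim_inr]
          have := hlev a
          omega)
        simpa using this
      subst e1
      subst e2
      have := hTκ z a ζ hζ ζ' hζ' ζ'' hζ'' (fun b hb => by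
        have := h1 (Sum.inl b) (by simpa using hb)
        simpa using this) (fun b hb => by
        have := h2 (Sum.inl b) (by simpa using hb)
        simpa using this)
      refine ⟨by simpa using this.1, ?_⟩
      refine le_trans ?_ (le_max_right D D')
      simpa using this.2
    | inr a =>
      have := hT a z hz z' hz' z'' hz'' (fun b hb => by
        have := h1 (Sum.inr b) (by simpa using hb)
        simpa using this) (fun b hb => by
        have := h2 (Sum.inr b) (by simpa using hb)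
        simpa using this)
      refine ⟨by simpa using this.1, ?_⟩
      refine le_trans ?_ (le_max_left D D')
      simpa using this.2
  · intro x hx
    obtain ⟨z, hz, ζ, hζ, rfl⟩ := hmem x hx
    obtain ⟨a1, a2, a3, a4⟩ := hw z hz
    obtain ⟨b1, b2, b3, b4⟩ := hwκ z ζ hζ
    rw [gw_fromBlocks, pos_fromBlocks, nsq_elim, Fintype.card_sum]
    simp only [Sum.elim_inl, Sum.elim_inr]
    push_cast
    refine ⟨mul_nonneg a1 b1, mul_le_mul a2 b2 b1 (gw_nonneg _ _ _), ?_, ?_⟩
    · linarith only [a3, b3]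
    · linarith only [a4, b4]
  · intro μ X hμ hX hCA
    rw [Finset.sum_map, Finset.sum_sigma]
    have hstep : ∀ z ∈ P, w z * (μ * Xc z) ≤
        ∑ ζ ∈ Q z, w (fun a => emb ⟨z, ζ⟩ (Sum.inr a)) *
          wκ (fun a => emb ⟨z, ζ⟩ (Sum.inr a)) (fun a => emb ⟨z, ζ⟩ (Sum.inl a)) *
          X (emb ⟨z, ζ⟩) := by
      intro z hz
      have h1 : CA 1 Bκ d' μ (fun ζ => X (Sum.elim ζ z)) := by
        intro ζ J hJ hJd
        have h2 := hCA (Sum.elim ζ z) (J.map ⟨Sum.inl, Sum.inl_injective⟩)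
          (Finset.map_subset_map.2 hJ) (by rw [Finset.card_map]; exact hJd)
        rw [Finset.card_map] at h2
        refine h2.trans (le_of_eq ?_)
        rw [powerset_map', Finset.sum_map]
        apply Finset.sum_congr rfl
        intro E _
        congr 1
        funext a
        cases a with
        | inl a => simp [ind]
        | inr a => simp [ind]
      have h2 := hcκ z μ (fun ζ => X (Sum.elim ζ z)) hμ (fun ζ => hX _) h1
      calc w z * (μ * Xc z) ≤ w z * ∑ ζ ∈ Q z, wκ z ζ * X (Sum.elim ζ z) :=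
            mul_le_mul_of_nonneg_left h2 (hw z hz).1
        _ = _ := by
            rw [Finset.mul_sum]
            apply Finset.sum_congr rfl
            intro ζ _
            change _ = w z * wκ z ζ * X (Sum.elim ζ z)
            ring
    refine le_trans ?_ (Finset.sum_le_sum hstep)
    have h3 : CA 1 B d (μ * μ') (fun z => μ * Xc z) := by
      intro z J hJ hJd
      have := hXcCA z J hJ hJd
      rw [← Finset.mul_sum, mul_assoc]
      exact mul_le_mul_of_nonneg_left this hμ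
    have h4 := hc (μ * μ') (fun z => μ * Xc z) (mul_nonneg hμ hμ')
      (fun z => mul_nonneg hμ (hXc0 z)) h3
    calc c * μ' * μ = c * (μ * μ') := by ring
      _ ≤ _ := h4

end compose

section block

variable {ι S C : Type*} [Fintype ι] [DecidableEq ι] [Fintype S] [DecidableEq S] [Fintype C]
  [DecidableEq C]

/-- the basis of one Construction-A block `δ (code + p ℤ^(S ⊕ C))` for the systematic code
`k ↦ (k, k Bm)` -/
noncomputable def blk (p : ℕ) (δ : ℝ) (Bm : Matrix S C (ZMod p)) :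
    Matrix (S ⊕ C) (S ⊕ C) ℝ :=
  Matrix.fromBlocks (δ • (1 : Matrix S S ℝ)) 0
    (Matrix.of fun (i : C) (j : S) => δ * ((Bm j i).val : ℝ)) ((p * δ) • (1 : Matrix C C ℝ))

/-- the coupling of the block with the upper coordinates -/
noncomputable def cpl (p : ℕ) (δ : ℝ) (β : ι → S ⊕ C → ZMod p) : Matrix (S ⊕ C) ι ℝ :=
  Matrix.of fun i b => δ * ((β b i).val : ℝ)

theorem det_blk (p : ℕ) (δ : ℝ) (Bm : Matrix S C (ZMod p)) :
    (blk p δ Bm).det = δ ^ (Fintype.card S) * (p * δ) ^ (Fintype.card C) := by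
  unfold blk
  rw [Matrix.det_fromBlocks_zero₁₂, Matrix.det_smul, Matrix.det_smul, Matrix.det_one,
    Matrix.det_one, mul_one, mul_one]

/-- integer part of the phase of the node `z` -/
noncomputable def nph (p : ℕ) (δ : ℝ) (β : ι → S ⊕ C → ZMod p) (y : S ⊕ C → ℝ) (z : ι → ℤ) :
    S ⊕ C → ℤ := fun i => ⌊y i / δ⌋ + ∑ b, ((β b i).val : ℤ) * z b

/-- lattice point of the block (in `δ`-units) with coordinates `ζ` -/
def kof (p : ℕ) (Bm : Matrix S C (ZMod p)) (n : S ⊕ C → ℤ) (ζ : S ⊕ C → ℤ) : S ⊕ C → ℤ :=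
  Sum.elim (fun j => n (Sum.inl j) + ζ (Sum.inl j))
    (fun i => n (Sum.inr i) + ∑ j, ((Bm j i).val : ℤ) * ζ (Sum.inl j) + p * ζ (Sum.inr i))

/-- the inverse map -/
def zof (p : ℕ) (Bm : Matrix S C (ZMod p)) (n : S ⊕ C → ℤ) (k : S ⊕ C → ℤ) : S ⊕ C → ℤ :=
  Sum.elim (fun j => k (Sum.inl j) - n (Sum.inl j))
    (fun i => (k (Sum.inr i) - n (Sum.inr i) -
      ∑ j, ((Bm j i).val : ℤ) * (k (Sum.inl j) - n (Sum.inl j))) / p)

theorem zof_kof (p : ℕ) (hp : 0 < p) (Bm : Matrix S C (ZMod p)) (n ζ : S ⊕ C → ℤ) :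
    zof p Bm n (kof p Bm n ζ) = ζ := by
  have hp' : (p : ℤ) ≠ 0 := by exact_mod_cast hp.ne'
  funext a
  cases a with
  | inl j => simp only [zof, kof, Sum.elim_inl]; ring
  | inr i =>
    simp only [zof, kof, Sum.elim_inl, Sum.elim_inr]
    have h1 : ∀ j, n (Sum.inl j) + ζ (Sum.inl j) - n (Sum.inl j) = ζ (Sum.inl j) := by
      intro j; ring
    simp only [h1]
    rw [show n (Sum.inr i) + ∑ j, ((Bm j i).val : ℤ) * ζ (Sum.inl j) + p * ζ (Sum.inr i)
      - n (Sum.inr i) - ∑ j, ((Bm j i).val : ℤ) * ζ (Sum.inl j) = p * ζ (Sum.inr i) by ring]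
    exact Int.mul_ediv_cancel_left _ hp'

/-- membership in the coset `v + code`, expressed for an integer vector -/
theorem kof_zof (p : ℕ) [Fact p.Prime] (Bm : Matrix S C (ZMod p)) (n k : S ⊕ C → ℤ)
    (u : S → ZMod p)
    (h : (fun i => ((k i : ℤ) : ZMod p)) =
      (fun i => ((n i : ℤ) : ZMod p)) + Sum.elim u (Matrix.vecMul u Bm)) :
    kof p Bm n (zof p Bm n k) = k := by
  have hp : (p : ℤ) ≠ 0 := by
    have := (Fact.out : p.Prime).ne_zero
    exact_mod_cast this
  funext a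
  cases a with
  | inl j => simp only [zof, kof, Sum.elim_inl]; ring
  | inr i =>
    simp only [zof, kof, Sum.elim_inl, Sum.elim_inr]
    have hu : ∀ j, ((k (Sum.inl j) - n (Sum.inl j) : ℤ) : ZMod p) = u j := by
      intro j
      have := congrFun h (Sum.inl j)
      simp only [Pi.add_apply, Sum.elim_inl] at this
      push_cast
      rw [this]
      ring
    have hdvd : (p : ℤ) ∣ k (Sum.inr i) - n (Sum.inr i) -
        ∑ j, ((Bm j i).val : ℤ) * (k (Sum.inl j) - n (Sum.inl j)) := by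
      rw [← ZMod.intCast_zmod_eq_zero_iff_dvd]
      push_cast
      have h1 := congrFun h (Sum.inr i)
      simp only [Pi.add_apply, Sum.elim_inr] at h1
      rw [h1]
      have h2 : Matrix.vecMul u Bm i = ∑ j, u j * Bm j i := rfl
      rw [h2]
      have h3 : ∀ j, ((k (Sum.inl j) : ZMod p) - (n (Sum.inl j) : ZMod p)) = u j := by
        intro j
        have := hu j
        push_cast at this
        exact this
      simp only [h3, ZMod.natCast_val, ZMod.cast_id', id_eq]
      rw [show (∑ j, Bm j i * u j) = ∑ j, u j * Bm j i from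
        Finset.sum_congr rfl fun j _ => mul_comm _ _]
      ring
    rw [Int.mul_ediv_cancel' hdvd]
    ring

theorem zof_add (p : ℕ) (hp : 0 < p) (Bm : Matrix S C (ZMod p)) (n k : S ⊕ C → ℤ)
    (E : Finset (S ⊕ C)) (hE : ∀ a ∈ E, ∃ i, a = Sum.inr i) :
    zof p Bm n (k + (p : ℤ) • ind E) = zof p Bm n k + (1 : ℤ) • ind E := by
  have hp' : (p : ℤ) ≠ 0 := by exact_mod_cast hp.ne'
  have h0 : ∀ j : S, ind E (Sum.inl j) = 0 := by
    intro j
    unfold ind
    rw [if_neg]
    intro h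
    obtain ⟨i, hi⟩ := hE _ h
    exact absurd hi (by simp)
  funext a
  cases a with
  | inl j =>
    simp only [zof, Sum.elim_inl, Pi.add_apply, Pi.smul_apply, h0 j]
    simp
  | inr i =>
    simp only [zof, Sum.elim_inr, Pi.add_apply, Pi.smul_apply, h0, smul_eq_mul, mul_zero,
      add_zero, one_mul]
    rw [show k (Sum.inr i) + p * ind E (Sum.inr i) - n (Sum.inr i) -
      ∑ j, ((Bm j i).val : ℤ) * (k (Sum.inl j) - n (Sum.inl j)) =
      (k (Sum.inr i) - n (Sum.inr i) -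
      ∑ j, ((Bm j i).val : ℤ) * (k (Sum.inl j) - n (Sum.inl j))) + p * ind E (Sum.inr i) by ring]
    exact Int.add_mul_ediv_left _ _ hp'

theorem pos_blk (p : ℕ) {δ : ℝ} (hδ : 0 < δ) (Bm : Matrix S C (ZMod p))
    (β : ι → S ⊕ C → ZMod p) (y : S ⊕ C → ℝ) (z : ι → ℤ) (ζ : S ⊕ C → ℤ) (i : S ⊕ C) :
    pos (blk p δ Bm) (fun i => y i + (cpl p δ β).mulVec (fun a => (z a : ℝ)) i) ζ i =
      δ * ((kof p Bm (nph p δ β y z) ζ i : ℝ) + Int.fract (y i / δ)) := by
  have hy : y i = δ * ((⌊y i / δ⌋ : ℝ) + Int.fract (y i / δ)) := by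
    rw [Int.floor_add_fract]
    field_simp
  have hc : (cpl p δ β).mulVec (fun a => (z a : ℝ)) i =
      δ * ∑ b, ((β b i).val : ℝ) * (z b : ℝ) := by
    rw [Matrix.mulVec, dotProduct, Finset.mul_sum]
    apply Finset.sum_congr rfl
    intro b _
    simp only [cpl, Matrix.of_apply]
    ring
  unfold pos
  have hz : (fun a => ((ζ a : ℤ) : ℝ)) =
      Sum.elim (fun a => (ζ (Sum.inl a) : ℝ)) (fun a => (ζ (Sum.inr a) : ℝ)) := by
    funext a
    cases a <;> rfl
  simp only []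
  rw [hc, hz]
  unfold blk
  rw [Matrix.fromBlocks_mulVec]
  clear hc
  cases i with
  | inl j =>
    simp only [Sum.elim_inl, Sum.elim_comp_inl, Sum.elim_comp_inr,
      Matrix.zero_mulVec, add_zero, Matrix.smul_mulVec, Matrix.one_mulVec, Pi.smul_apply,
      smul_eq_mul, kof, nph]
    push_cast
    linear_combination hy
  | inr j =>
    simp only [Sum.elim_inr, Sum.elim_comp_inl, Sum.elim_comp_inr, Pi.add_apply,
      Matrix.smul_mulVec, Matrix.one_mulVec, Pi.smul_apply,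
      smul_eq_mul, kof, nph]
    have h2 : (Matrix.of fun (i : C) (j : S) => δ * ((Bm j i).val : ℝ)).mulVec
        (fun a => (ζ (Sum.inl a) : ℝ)) j = δ * ∑ a, ((Bm a j).val : ℝ) * (ζ (Sum.inl a) : ℝ) := by
      rw [Matrix.mulVec, dotProduct, Finset.mul_sum]
      apply Finset.sum_congr rfl
      intro b _
      simp only [Matrix.of_apply]
      ring
    rw [h2]
    push_cast
    linear_combination hy

/-- levels inside a block: the message coordinates are above the check coordinates -/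
def levB : S ⊕ C → ℕ := Sum.elim (fun _ => 1) (fun _ => 0)

theorem treeLike_block (p : ℕ) [Fact p.Prime] (Bm : Matrix S C (ZMod p)) (n : S ⊕ C → ℤ)
    (u : S ⊕ C → ZMod p) (Q : Finset (S ⊕ C → ℤ))
    (hQ : ∀ k ∈ Q, ∀ i, k i = ((u i).val : ℤ) ∨ k i = ((u i).val : ℤ) - p)
    (hinv : ∀ k ∈ Q, kof p Bm n (zof p Bm n k) = k) :
    TreeLike (levB : S ⊕ C → ℕ) p (Q.image (zof p Bm n)) := by
  classical
  have hp : (0 : ℤ) < p := by exact_mod_cast (Fact.out : p.Prime).pos
  have hp1 : (1 : ℤ) ≤ p := by omega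
  intro a z hz z' hz' z'' hz'' h1 h2
  rw [Finset.mem_image] at hz hz' hz''
  obtain ⟨k, hk, rfl⟩ := hz
  obtain ⟨k', hk', rfl⟩ := hz'
  obtain ⟨k'', hk'', rfl⟩ := hz''
  have q1 := hQ k hk a
  have q2 := hQ k' hk' a
  have q3 := hQ k'' hk'' a
  cases a with
  | inl j =>
    have e : ∀ k : S ⊕ C → ℤ, zof p Bm n k (Sum.inl j) = k (Sum.inl j) - n (Sum.inl j) :=
      fun k => rfl
    rw [e k, e k', e k'']
    constructor
    · omega
    · have : |k (Sum.inl j) - n (Sum.inl j) - (k' (Sum.inl j) - n (Sum.inl j))| ≤ (p : ℤ) := by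
        rw [abs_le]
        omega
      rw [← Int.cast_abs]
      exact_mod_cast this
  | inr i =>
    have e : ∀ k ∈ Q, k (Sum.inr i) = n (Sum.inr i) +
        ∑ j, ((Bm j i).val : ℤ) * zof p Bm n k (Sum.inl j) + p * zof p Bm n k (Sum.inr i) := by
      intro k hk
      exact (congrFun (hinv k hk) (Sum.inr i)).symm
    have e1 := e k hk
    have e2 := e k' hk'
    have e3 := e k'' hk''
    have s1 : ∑ j, ((Bm j i).val : ℤ) * zof p Bm n k (Sum.inl j) =
        ∑ j, ((Bm j i).val : ℤ) * zof p Bm n k' (Sum.inl j) := by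
      apply Finset.sum_congr rfl
      intro j _
      rw [h1 (Sum.inl j) (by simp [levB])]
    have s2 : ∑ j, ((Bm j i).val : ℤ) * zof p Bm n k (Sum.inl j) =
        ∑ j, ((Bm j i).val : ℤ) * zof p Bm n k'' (Sum.inl j) := by
      apply Finset.sum_congr rfl
      intro j _
      rw [h2 (Sum.inl j) (by simp [levB])]
    rw [← s1] at e2
    rw [← s2] at e3
    have d1 : (p : ℤ) * (zof p Bm n k (Sum.inr i) - zof p Bm n k' (Sum.inr i)) =
        k (Sum.inr i) - k' (Sum.inr i) := by rw [e1, e2]; ring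
    have d2 : (p : ℤ) * (zof p Bm n k (Sum.inr i) - zof p Bm n k'' (Sum.inr i)) =
        k (Sum.inr i) - k'' (Sum.inr i) := by rw [e1, e3]; ring
    have d3 : (p : ℤ) * (zof p Bm n k' (Sum.inr i) - zof p Bm n k'' (Sum.inr i)) =
        k' (Sum.inr i) - k'' (Sum.inr i) := by rw [e2, e3]; ring
    constructor
    · have : k (Sum.inr i) = k' (Sum.inr i) ∨ k (Sum.inr i) = k'' (Sum.inr i) ∨
          k' (Sum.inr i) = k'' (Sum.inr i) := by omega
      rcases this with h | h | h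
      · left
        rw [h, sub_self, mul_eq_zero] at d1
        rcases d1 with h | h
        · omega
        · omega
      · right; left
        rw [h, sub_self, mul_eq_zero] at d2
        rcases d2 with h | h
        · omega
        · omega
      · right; right
        rw [h, sub_self, mul_eq_zero] at d3
        rcases d3 with h | h
        · omega
        · omega
    · have hb : |(p : ℤ) * (zof p Bm n k (Sum.inr i) - zof p Bm n k' (Sum.inr i))| ≤ (p : ℤ) := by
        rw [d1, abs_le]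
        omega
      rw [abs_mul, abs_of_pos hp] at hb
      have : |zof p Bm n k (Sum.inr i) - zof p Bm n k' (Sum.inr i)| ≤ (p : ℤ) := by
        have h0 := abs_nonneg (zof p Bm n k (Sum.inr i) - zof p Bm n k' (Sum.inr i))
        nlinarith only [hb, h0, hp1]
      rw [← Int.cast_abs]
      exact_mod_cast this

theorem Xcap_nonneg (p : ℕ) (g : (S ⊕ C → ZMod p) → ℝ) (hg : ∀ u, 0 ≤ g u)
    (Bm : Matrix S C (ZMod p)) (v : S ⊕ C → ZMod p) : 0 ≤ Xcap p g Bm v := by
  unfold Xcap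
  split_ifs
  · exact mul_nonneg (by positivity) (hg _)
  · exact le_rfl

theorem nph_add (p : ℕ) [Fact p.Prime] (δ : ℝ) (β : ι → S ⊕ C → ZMod p) (y : S ⊕ C → ℝ)
    (z : ι → ℤ) (E : Finset ι) :
    (fun i => ((nph p δ β y (z + (1 : ℤ) • ind E) i : ℤ) : ZMod p)) =
      (fun i => ((nph p δ β y z i : ℤ) : ZMod p)) + ∑ b ∈ E, β b := by
  funext i
  simp only [nph, Pi.add_apply, Finset.sum_apply, one_smul]
  push_cast
  simp only [ZMod.natCast_val, ZMod.cast_id', id_eq, mul_add, Finset.sum_add_distrib]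
  rw [add_assoc]
  congr 2
  have : ∀ b, β b i * ((ind E b : ℤ) : ZMod p) = if b ∈ E then β b i else 0 := by
    intro b
    unfold ind
    split_ifs <;> simp
  rw [Finset.sum_congr rfl fun b _ => this b, Finset.sum_ite_mem, Finset.univ_inter]

theorem blockAt_of_typ {p : ℕ} [Fact p.Prime] {δ : ℝ} (hδ : 0 < δ)
    {g : (S ⊕ C → ZMod p) → ℝ} (hg : ∀ u, 0 ≤ g u) {Bs : Finset (S ⊕ C)}
    (hBs : ∀ a ∈ Bs, ∃ i, a = Sum.inr i) {d' : ℕ} {slo' shi' : ℝ}
    (hTyp : Typ p δ Bs d' slo' shi' g) (Bm : Matrix S C (ZMod p)) (β : ι → S ⊕ C → ZMod p)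
    (B : Finset ι) (d : ℕ) (μ' : ℝ)
    (hG1 : ∀ v : S ⊕ C → ZMod p, ∀ J ⊆ B, d ≤ J.card →
      μ' * 2 ^ J.card ≤ ∑ E ∈ J.powerset, Xcap p g Bm (v + ∑ j ∈ E, β j))
    (y : S ⊕ C → ℝ) :
    BlockAt levB (blk p δ Bm) (cpl p δ β) Bs p d' slo' shi' B d μ' y := by
  classical
  have hp0 : 0 < p := (Fact.out : p.Prime).pos
  have hpR : (0 : ℝ) < p := by exact_mod_cast hp0
  choose Q w hQlift hQw hQc using hTyp
  -- residue vector of the phase
  let vz : (ι → ℤ) → (S ⊕ C → ZMod p) := fun z i => ((nph p δ β y z i : ℤ) : ZMod p)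
  let good : (ι → ℤ) → Prop := fun z =>
    ∃! k : S → ZMod p, g (vz z + Sum.elim k (Matrix.vecMul k Bm)) ≠ 0
  let uz : (ι → ℤ) → (S ⊕ C → ZMod p) := fun z =>
    if h : good z then vz z + Sum.elim h.choose (Matrix.vecMul h.choose Bm) else 0
  have hinv : ∀ z, good z → ∀ k ∈ Q (uz z),
      kof p Bm (nph p δ β y z) (zof p Bm (nph p δ β y z) k) = k := by
    intro z hz k hk
    apply kof_zof p Bm (nph p δ β y z) k hz.choose
    have h1 : (fun i => ((k i : ℤ) : ZMod p)) = uz z := by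
      funext i
      rcases hQlift (uz z) k hk i with h | h
      · rw [h]; simp
      · rw [h]; simp
    rw [h1]
    simp only [uz, dif_pos hz]
    rfl
  refine ⟨fun z => if good z then (Q (uz z)).image (zof p Bm (nph p δ β y z)) else ∅,
    fun z ζ => (p : ℝ) ^ (Fintype.card C) * w (uz z) (kof p Bm (nph p δ β y z) ζ),
    fun z => Xcap p g Bm (vz z), ?_, ?_, ?_, ?_, ?_⟩
  · intro z
    by_cases hz : good z
    · simp only [if_pos hz]
      exact treeLike_block p Bm _ (uz z) (Q (uz z)) (hQlift (uz z)) (hinv z hz)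
    · simp only [if_neg hz]
      intro a z hz
      simp at hz
  · intro z ζ hζ
    by_cases hz : good z
    swap
    · simp only [if_neg hz] at hζ
      simp at hζ
    simp only [if_pos hz] at hζ
    rw [Finset.mem_image] at hζ
    obtain ⟨k, hk, rfl⟩ := hζ
    have hkk := hinv z hz k hk
    obtain ⟨a1, a2, a3, a4⟩ := hQw (uz z) k hk (fun i => Int.fract (y i / δ))
      (fun i => ⟨Int.fract_nonneg _, Int.fract_lt_one _⟩)
    have hpos : nsq (pos (blk p δ Bm) (fun i => y i + (cpl p δ β).mulVec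
        (fun a => (z a : ℝ)) i) (zof p Bm (nph p δ β y z) k)) =
        ∑ i, (δ * ((k i : ℝ) + Int.fract (y i / δ))) ^ 2 := by
      unfold nsq
      apply Finset.sum_congr rfl
      intro i _
      rw [pos_blk p hδ, hkk]
    rw [hpos]
    simp only []
    rw [hkk]
    refine ⟨mul_nonneg (by positivity) a1, ?_, a3, a4⟩
    unfold gw
    rw [hpos, det_blk]
    calc (p : ℝ) ^ (Fintype.card C) * w (uz z) k ≤ (p : ℝ) ^ (Fintype.card C) *
        ∏ i, (δ * (Real.sqrt (2 * Real.pi))⁻¹ *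
        Real.exp (-(δ * ((k i : ℝ) + Int.fract (y i / δ))) ^ 2 / 2)) :=
          mul_le_mul_of_nonneg_left a2 (by positivity)
      _ = _ := by
          rw [Finset.prod_mul_distrib, ← Real.exp_sum, Finset.prod_const, Finset.card_univ,
            mul_pow, abs_of_pos (by positivity), Fintype.card_sum]
          have : ∑ i, -(δ * ((k i : ℝ) + Int.fract (y i / δ))) ^ 2 / 2 =
              -(∑ i, (δ * ((k i : ℝ) + Int.fract (y i / δ))) ^ 2) / 2 := by
            rw [← Finset.sum_div, Finset.sum_neg_distrib]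
          rw [this, pow_add, pow_add, mul_pow]
          ring
  · intro z
    exact Xcap_nonneg p g hg Bm _
  · intro z J hJ hJd
    refine (hG1 (vz z) J hJ hJd).trans (le_of_eq ?_)
    apply Finset.sum_congr rfl
    intro E _
    congr 1
    exact (nph_add p δ β y z E).symm
  · intro z μ X hμ hX hCA
    by_cases hz : good z
    · simp only [if_pos hz]
      have hXc : Xcap p g Bm (vz z) = (p : ℝ) ^ (Fintype.card C) * g (uz z) := by
        simp only [Xcap, uz, dif_pos hz]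
        rw [dif_pos (show ∃! k : S → ZMod p, g (vz z + Sum.elim k (Matrix.vecMul k Bm)) ≠ 0
          from hz)]
      have hinj : Set.InjOn (zof p Bm (nph p δ β y z)) (Q (uz z)) := by
        intro k hk k' hk' h
        rw [← hinv z hz k hk, ← hinv z hz k' hk', h]
      rw [hXc, Finset.sum_image hinj]
      have h1 : CA p Bs d' μ (fun k => X (zof p Bm (nph p δ β y z) k)) := by
        intro k J hJ hJd
        refine (hCA (zof p Bm (nph p δ β y z) k) J hJ hJd).trans (le_of_eq ?_)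
        apply Finset.sum_congr rfl
        intro E hE
        rw [Finset.mem_powerset] at hE
        congr 1
        rw [zof_add p hp0]
        intro a ha
        exact hBs a (hJ (hE ha))
      have h2 := hQc (uz z) μ (fun k => X (zof p Bm (nph p δ β y z) k)) hμ (fun k => hX _) h1
      calc μ * ((p : ℝ) ^ (Fintype.card C) * g (uz z)) =
          (p : ℝ) ^ (Fintype.card C) * (μ * g (uz z)) := by ring
        _ ≤ (p : ℝ) ^ (Fintype.card C) *
            ∑ k ∈ Q (uz z), w (uz z) k * X (zof p Bm (nph p δ β y z) k) :=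
            mul_le_mul_of_nonneg_left h2 (by positivity)
        _ = _ := by
            rw [Finset.mul_sum]
            apply Finset.sum_congr rfl
            intro k hk
            rw [hinv z hz k hk]
            ring
    · simp only [if_neg hz, Finset.sum_empty]
      have : Xcap p g Bm (vz z) = 0 := by
        unfold Xcap
        rw [dif_neg]
        exact hz
      rw [this, mul_zero]

/-- G5: the block step -/
theorem Up.step {lev : ι → ℕ} {M : Matrix ι ι ℝ} {B : Finset ι} {D : ℝ} {d : ℕ}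
    {c slo shi : ℝ} (hUp : Up lev M B D d c slo shi)
    {p : ℕ} [Fact p.Prime] {δ : ℝ} (hδ : 0 < δ)
    {g : (S ⊕ C → ZMod p) → ℝ} (hg : ∀ u, 0 ≤ g u) {Bs : Finset (S ⊕ C)}
    (hBs : ∀ a ∈ Bs, ∃ i, a = Sum.inr i) {d' : ℕ} {slo' shi' : ℝ}
    (hTyp : Typ p δ Bs d' slo' shi' g) (Bm : Matrix S C (ZMod p)) (β : ι → S ⊕ C → ZMod p)
    {μ' : ℝ} (hμ' : 0 ≤ μ')
    (hG1 : ∀ v : S ⊕ C → ZMod p, ∀ J ⊆ B, d ≤ J.card →
      μ' * 2 ^ J.card ≤ ∑ E ∈ J.powerset, Xcap p g Bm (v + ∑ j ∈ E, β j)) :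
    Up (Sum.elim levB (fun a => lev a + 2)) (Matrix.fromBlocks (blk p δ Bm) (cpl p δ β) 0 M)
      (Bs.map ⟨Sum.inl, Sum.inl_injective⟩) (max D p) d' (c * μ') (slo + slo') (shi + shi') :=
  hUp.compose levB 2 (by rintro (a | a) <;> simp [levB]) _ _ Bs d' μ' p slo' shi' hμ'
    (fun y => blockAt_of_typ hδ hg hBs hTyp Bm β B d μ' hG1 y)

theorem det_step (p : ℕ) (δ : ℝ) (Bm : Matrix S C (ZMod p)) (β : ι → S ⊕ C → ZMod p)
    (M : Matrix ι ι ℝ) :
    (Matrix.fromBlocks (blk p δ Bm) (cpl p δ β) 0 M).det =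
      δ ^ (Fintype.card S) * (p * δ) ^ (Fintype.card C) * M.det := by
  rw [Matrix.det_fromBlocks_zero₂₁, det_blk]

end block

end Vale.Agent.P230.G
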