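import Vale.Agent.P230.G.Interf
import Vale.Agent.P230.G.Step
import Vale.Agent.P230.G.StatesGt
import Vale.Agent.P230.G.BlockLemma

/-!
# P230: one block on top of `HasUp`, with all numerical conditions as hypotheses
-/

namespace Vale.Agent.P230.G

open Finset H852

/-- the numerical conditions of the block lemma (`R = s + r` coordinates, `r` check coordinates,
at most `b'` free coordinates above) -/
structure BlockNum (p s r b' d1 d2 ρ : ℕ) (q h lam ε τ η : ℝ) : Prop where
  hε : 0 < ε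
  hε1 : ε ≤ 1
  hτ : 0 < τ
  hρ : (2 : ℝ) ^ ρ ≤ 2 * (ε * 2 ^ d2)
  hη : ((p : ℝ) ^ r * Real.exp (-h + lam) * (1 + 4 * Real.exp (h + lam) / (p : ℝ) ^ r) / 2 ^ d1
        + τ) / ε ^ 2 + 4 * Real.exp (h + lam) / (p : ℝ) ^ r / ε ≤ η
  h1 : 8 * 3 ^ b' * (p : ℝ) ^ r * q ^ (s + r) < τ ^ 2
  h2 : 2 * 4 ^ b' * (p : ℝ) ^ (s + r) * (2 ^ d2 * η) ^ ρ < 1

/-- the block step with numerical hypotheses -/
theorem HasUp.block {t b' : ℕ} {D : ℝ} {d : ℕ} {c slo shi v : ℝ}
    (hU : HasUp t b' D d c slo shi v) {p : ℕ} [Fact p.Prime] {A w : ℝ} (hA : 0 < A)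
    (s r : ℕ) (bB : Bool) (h lam lo hi : ℝ) (Dn : ℕ) {q : ℝ}
    (hq : ∑ a : ZMod p, ∑ b : ZMod p, ∑ c : ZMod p,
      H852.G A a * H852.G A b * H852.G A c * H852.G A (b + c - a) ≤ q)
    {d1 d2 ρ : ℕ} {ε τ η : ℝ} (hnum : BlockNum p s r b' d1 d2 ρ q h lam ε τ η)
    (hd : d1 + d2 ≤ d) {μ : ℝ} (hμ0 : 2 * ε ≤ μ)
    (hμ : μ ≤ ∑ u : Fin s ⊕ Fin r → ZMod p,
      gt A w (Sum.elim (fun _ => false) (fun _ => bB)) h lam lo hi Dn u)
    (θ : ℝ) (hθ : 0 ≤ θ)
    (hround : ((s + r : ℕ) : ℝ) * (2 * A * del A p + del A p ^ 2) ≤ 1)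
    (hθ' : θ ≤ (del A p * NA A p / Real.sqrt (2 * Real.pi)) ^ (s + r) *
      Real.exp (-(((s + r : ℕ) : ℝ) * (2 * A * del A p + del A p ^ 2)) / 2)) :
    HasUp (t + (s + r)) (if bB then r else 0) (max D p) Dn (c * (θ * ((1 - ε) * (μ - 2 * ε))))
      (slo + (((s + r : ℕ) : ℝ) - lo + 1)) (shi + (hi - ((s + r : ℕ) : ℝ) + 1))
      (v + ((s + r : ℕ) : ℝ) * Real.log (Real.sqrt (2 * Real.pi * Real.exp 1) / del A p) -
        r * Real.log p) := by
  classical
  obtain ⟨ι, _, _, lev, M, B, hcard, hB, hdet, hUp, hv⟩ := hU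
  have hp : (0 : ℝ) < p := by exact_mod_cast (Fact.out : p.Prime).pos
  have hδ : 0 < del A p := by unfold del; positivity
  have hcardκ : Fintype.card (Fin s ⊕ Fin r) = s + r := by
    rw [Fintype.card_sum, Fintype.card_fin, Fintype.card_fin]
  set bb : Fin s ⊕ Fin r → Bool := Sum.elim (fun _ => false) (fun _ => bB) with hbb
  set g : (Fin s ⊕ Fin r → ZMod p) → ℝ := fun u => gt A w bb h lam lo hi Dn u with hg
  have hε := hnum.hε
  have hsum1 : ∑ u, g u ≤ 1 := sum_gt_le_one
  have hsum0 : 0 < ∑ u, g u := by linarith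
  have hη := hnum.hη
  -- the block lemma
  obtain ⟨Bm, β, hG1⟩ := block_lemma (S := Fin s) (C := Fin r) B g (fun u => gt_nonneg u)
    (Real.exp (-h + lam)) (∑ u, g u) (q ^ (s + r)) (Real.exp (h + lam)) ε τ η
    (fun u => gt_le_exp u) rfl hsum0 (by
      refine le_trans (le_of_eq ?_) (card_supp_le (P := p) (A := A) (w := w) (b := bb) (h := h)
        (lam := lam) (lo := lo) (hi := hi) (D := Dn))
      congr!) (by
      have := energy_le (κ := Fin s ⊕ Fin r) (w := w) (b := bb) (h := h) (lam := lam)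
        (lo := lo) (hi := hi) (D := Dn) hq
      rw [hcardκ] at this
      exact this) hnum.hε hnum.hε1 hnum.hτ d1 d2 ρ hnum.hρ (by
      rw [Fintype.card_fin]
      refine le_trans ?_ hη
      have hpr : (0 : ℝ) < (p : ℝ) ^ r := by positivity
      have e1 := Real.exp_pos (-h + lam)
      have e2 := Real.exp_pos (h + lam)
      have h3 : (p : ℝ) ^ r * Real.exp (-h + lam) * (∑ u, g u) *
          (1 + 4 * Real.exp (h + lam) / (p : ℝ) ^ r) / 2 ^ d1 ≤
          (p : ℝ) ^ r * Real.exp (-h + lam) *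
          (1 + 4 * Real.exp (h + lam) / (p : ℝ) ^ r) / 2 ^ d1 := by
        apply div_le_div_of_nonneg_right _ (by positivity)
        apply mul_le_mul_of_nonneg_right _ (by positivity)
        exact mul_le_of_le_one_right (by positivity) hsum1
      have h4 : 4 * (∑ u, g u) * Real.exp (h + lam) / (p : ℝ) ^ r / ε ≤
          4 * Real.exp (h + lam) / (p : ℝ) ^ r / ε := by
        gcongr
        linarith
      have h5 : ((p : ℝ) ^ r * Real.exp (-h + lam) * (∑ u, g u) *
          (1 + 4 * Real.exp (h + lam) / (p : ℝ) ^ r) / 2 ^ d1 + τ) / ε ^ 2 ≤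
          ((p : ℝ) ^ r * Real.exp (-h + lam) *
          (1 + 4 * Real.exp (h + lam) / (p : ℝ) ^ r) / 2 ^ d1 + τ) / ε ^ 2 := by
        gcongr
      linarith) (by
      rw [Fintype.card_fin]
      refine lt_of_le_of_lt ?_ hnum.h1
      have hq0 : 0 ≤ q := by
        refine le_trans ?_ hq
        exact Finset.sum_nonneg fun a _ => Finset.sum_nonneg fun b _ => Finset.sum_nonneg fun c _ =>
          mul_nonneg (mul_nonneg (mul_nonneg (G_pos a).le (G_pos b).le) (G_pos c).le) (G_pos _).le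
      have : (3 : ℝ) ^ B.card ≤ 3 ^ b' := pow_le_pow_right₀ (by norm_num) hB
      gcongr) (by
      rw [Fintype.card_fin, Fintype.card_fin]
      refine lt_of_le_of_lt ?_ hnum.h2
      have h3 : (4 : ℝ) ^ B.card ≤ 4 ^ b' := pow_le_pow_right₀ (by norm_num) hB
      have hη0 : 0 ≤ η := by
        refine le_trans ?_ hη
        have := hnum.hτ
        positivity
      gcongr)
  -- the typical set
  have hTyp := typ_of_gt (κ := Fin s ⊕ Fin r) (p := p) (w := w) hA.le bb h lam lo hi Dn θ hθ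
    (by rw [hcardκ]; exact hround) (by rw [hcardκ]; exact hθ')
  rw [hcardκ] at hTyp
  set Bs : Finset (Fin s ⊕ Fin r) := Finset.univ.filter fun i => bb i = true with hBs
  have hBs' : ∀ a ∈ Bs, ∃ i, a = Sum.inr i := by
    intro a ha
    rw [hBs, Finset.mem_filter] at ha
    cases a with
    | inl a => simp [hbb] at ha
    | inr a => exact ⟨a, rfl⟩
  have hBcard : Bs.card ≤ if bB then r else 0 := by
    cases bB with
    | false =>
      have : Bs = ∅ := by
        rw [Finset.eq_empty_iff_forall_notMem]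
        intro a ha
        rw [hBs, Finset.mem_filter] at ha
        cases a <;> simp [hbb] at ha
      rw [this]
      simp
    | true =>
      have : Bs ⊆ Finset.univ.map ⟨Sum.inr, Sum.inr_injective⟩ := by
        intro a ha
        obtain ⟨i, rfl⟩ := hBs' a ha
        exact Finset.mem_map.2 ⟨i, Finset.mem_univ _, rfl⟩
      have := Finset.card_le_card this
      rw [Finset.card_map, Finset.card_univ, Fintype.card_fin] at this
      simpa using this
  have hmono : (1 - ε) * (μ - 2 * ε) ≤ (1 - ε) * (∑ u, g u - 2 * ε) :=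
    mul_le_mul_of_nonneg_left (by linarith) (by linarith [hnum.hε1])
  have hμ'0 : 0 ≤ θ * ((1 - ε) * (μ - 2 * ε)) :=
    mul_nonneg hθ (mul_nonneg (by linarith [hnum.hε1]) (by linarith))
  have hstep := hUp.step (p := p) hδ (g := fun u => θ * g u)
    (fun u => mul_nonneg hθ (gt_nonneg u)) hBs' hTyp Bm β
    (μ' := θ * ((1 - ε) * (μ - 2 * ε))) hμ'0 (by
      intro v' J hJ hJd
      have h3 := hG1 v' J hJ (hd.trans hJd)
      simp only [Xcap_smul]
      rw [← Finset.mul_sum]
      calc θ * ((1 - ε) * (μ - 2 * ε)) * 2 ^ J.card = θ * ((1 - ε) * (μ - 2 * ε) * 2 ^ J.card) := by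
            ring
        _ ≤ θ * ((1 - ε) * (∑ u, g u - 2 * ε) * 2 ^ J.card) := by gcongr
        _ ≤ _ := mul_le_mul_of_nonneg_left h3 hθ)
  refine ⟨(Fin s ⊕ Fin r) ⊕ ι, inferInstance, inferInstance, _, _, _, ?_, ?_, ?_, hstep, ?_⟩
  · rw [Fintype.card_sum, hcardκ, hcard, add_comm]
  · rw [Finset.card_map]
    exact hBcard
  · rw [det_step]
    exact mul_ne_zero (mul_ne_zero (pow_ne_zero _ hδ.ne')
      (pow_ne_zero _ (mul_ne_zero hp.ne' hδ.ne'))) hdet
  · rw [← hv]
    unfold logV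
    rw [det_step, Fintype.card_sum, hcardκ, hcard, Fintype.card_fin, Fintype.card_fin, abs_mul,
      Real.log_mul (by positivity) (abs_ne_zero.2 hdet), abs_of_pos (by positivity),
      Real.log_mul (by positivity) (by positivity), Real.log_pow, Real.log_pow,
      Real.log_mul hp.ne' hδ.ne',
      Real.log_div (by positivity) hδ.ne']
    push_cast
    ring

end Vale.Agent.P230.G
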