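import Vale.Agent.P230.G.Interf
import Vale.Agent.P230.G6.Top

/-! P230, part G8a: last block and tuning. -/

set_option autoImplicit false

namespace Vale.Agent.P230.G

open Finset Filter

theorem HasUp.mono {t b b' : ℕ} {D D' : ℝ} {d d' : ℕ} {c c' slo slo' shi shi' v : ℝ}
    (h : HasUp t b D d c slo shi v) (hb : b ≤ b') (hD : D ≤ D') (hd : d' ≤ d) (hc : c' ≤ c)
    (hlo : slo ≤ slo') (hhi : shi ≤ shi') : HasUp t b' D' d' c' slo' shi' v := by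
  obtain ⟨ι, i1, i2, lev, M, B, h1, h2, h3, h4, h5⟩ := h
  exact ⟨ι, i1, i2, lev, M, B, h1, h2.trans hb, h3, h4.mono (Finset.Subset.refl B) hD hd hc hlo hhi, h5⟩

namespace Tune

/-- the basic asymptotic comparison -/
theorem ev (C p q s : ℝ) (h : p < q) :
    ∀ᶠ a : ℝ in atTop, C * (a ^ p * (Real.log a) ^ s) ≤ a ^ q := by
  have h1 := (isLittleO_log_rpow_rpow_atTop s (sub_pos.mpr h)).bound
    (c := 1 / (|C| + 1)) (by positivity)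
  filter_upwards [h1, eventually_ge_atTop (1:ℝ)] with a ha h1a
  have ha0 : 0 < a := by linarith
  have hl : 0 ≤ Real.log a := Real.log_nonneg h1a
  rw [Real.norm_of_nonneg (Real.rpow_nonneg hl _), Real.norm_of_nonneg (Real.rpow_nonneg ha0.le _)] at ha
  have hC : 0 < |C| + 1 := by positivity
  have h2 : (|C| + 1) * (Real.log a) ^ s ≤ a ^ (q - p) := by
    calc (|C| + 1) * (Real.log a) ^ s ≤ (|C| + 1) * (1 / (|C| + 1) * a ^ (q - p)) :=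
          mul_le_mul_of_nonneg_left ha hC.le
      _ = a ^ (q - p) := by field_simp
  have h3 : C * (Real.log a) ^ s ≤ a ^ (q - p) := by
    refine le_trans (mul_le_mul_of_nonneg_right ?_ (Real.rpow_nonneg hl _)) h2
    linarith [le_abs_self C]
  calc C * (a ^ p * (Real.log a) ^ s) = a ^ p * (C * (Real.log a) ^ s) := by ring
    _ ≤ a ^ p * a ^ (q - p) := mul_le_mul_of_nonneg_left h3 (Real.rpow_nonneg ha0.le _)
    _ = a ^ q := by rw [← Real.rpow_add ha0]; congr 1; ring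

theorem ev0 (C p q : ℝ) (h : p < q) : ∀ᶠ a : ℝ in atTop, C * a ^ p ≤ a ^ q := by
  filter_upwards [ev C p q 0 h] with a ha
  simpa using ha

theorem ev1 (C p q : ℝ) (h : p < q) : ∀ᶠ a : ℝ in atTop, C * (a ^ p * Real.log a) ≤ a ^ q := by
  filter_upwards [ev C p q 1 h] with a ha
  simpa using ha

theorem evh (C p q : ℝ) (h : p < q) : ∀ᶠ a : ℝ in atTop, C * (a ^ p * Real.sqrt (Real.log a)) ≤ a ^ q := by
  filter_upwards [ev C p q (1/2) h] with a ha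
  rw [Real.sqrt_eq_rpow]
  exact ha

/-- power of `2 a^1.01` -/
theorem pow101 {a p : ℝ} (ha : 1 ≤ a) (hp : p ≤ 1) :
    (2 * a ^ (1.01:ℝ)) ^ p ≤ 2 * a ^ (1.01 * p) := by
  have ha0 : 0 ≤ a := by linarith
  rw [Real.mul_rpow (by norm_num) (Real.rpow_nonneg ha0 _), ← Real.rpow_mul ha0]
  refine mul_le_mul_of_nonneg_right ?_ (Real.rpow_nonneg ha0 _)
  calc (2:ℝ) ^ p ≤ 2 ^ (1:ℝ) := Real.rpow_le_rpow_of_exponent_le (by norm_num) hp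
    _ = 2 := by norm_num

/-- all numerical facts, in terms of `a = Ra` -/
theorem numerics (A0 c1 C1 K0 L' : ℝ) (hc1 : 0 < c1) :
    ∀ᶠ a : ℝ in atTop, 1 ≤ a ∧ A0 ≤ Real.sqrt (2.4 * Real.log a) ∧
      2 * a ^ (1.01 * (0.92:ℝ)) ≤ a / 1000 ∧
      2 * a ^ (1.01 * (0.95:ℝ)) ≤ a ∧
      K0 + 2 * a ^ (1.01 * (0.67:ℝ)) ≤ a ^ (0.7:ℝ) ∧
      C1 * (2.4 * Real.log a) * a ^ (-0.3:ℝ) ≤ 1 ∧
      C1 * (2.4 * Real.log a) * a ^ (0.7:ℝ) + a ^ (0.7:ℝ) < a ^ (50/71:ℝ) ∧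
      2 * a ^ (50/71:ℝ) + Real.log (2 * a ^ (10:ℕ)) + 3 * (a ^ (1.01:ℝ)) ^ (0.53:ℝ) +
        (L' + 1) * Real.sqrt (a + a ^ (1.01:ℝ)) ≤
        (a ^ (1.01:ℝ) / 2) * (c1 * a ^ (-0.3:ℝ) / Real.sqrt (2.4 * Real.log a)) ∧
      Real.log (2 * a ^ (10:ℕ)) + 1 ≤ Real.sqrt a ∧
      K0 + 2 * a ^ (1.01 * (0.49:ℝ)) ≤ 2 * Real.sqrt a ∧
      (2 * a ^ (1.01:ℝ)) ^ (10:ℕ) ≤ Real.exp a ∧ 2 * a ^ (10:ℕ) ≤ Real.exp a ∧
      a + a ^ (1.01:ℝ) ≤ a ^ (80/71:ℝ) ∧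
      2 * a ^ (50/71:ℝ) ≤ a := by
  have t1 : ∀ᶠ a : ℝ in atTop, A0 ≤ Real.sqrt (2.4 * Real.log a) := by
    have : Tendsto (fun a : ℝ => Real.sqrt (2.4 * Real.log a)) atTop atTop :=
      Real.tendsto_sqrt_atTop.comp (Real.tendsto_log_atTop.const_mul_atTop (by norm_num))
    exact this.eventually_ge_atTop A0
  have tc : ∀ K q : ℝ, 0 < q → ∀ᶠ a : ℝ in atTop, K ≤ a ^ q := by
    intro K q hq
    exact (tendsto_rpow_atTop hq).eventually_ge_atTop K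
  -- log bound
  have tl : ∀ q : ℝ, 0 < q → ∀ᶠ a : ℝ in atTop, Real.log (2 * a ^ (10:ℕ)) + 1 ≤ a ^ q := by
    intro q hq
    filter_upwards [ev1 22 0 q hq, tc 22 q hq, eventually_ge_atTop (3:ℝ)] with a h1 h2 h3
    have ha0 : 0 < a := by linarith
    rw [Real.log_mul (by norm_num) (by positivity), Real.log_pow]
    simp only [Real.rpow_zero, one_mul] at h1
    have h4 : Real.log 2 ≤ 1 := by
      have := Real.log_two_lt_d9; linarith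
    push_cast
    nlinarith
  filter_upwards [eventually_ge_atTop (3:ℝ), t1, ev0 2000 (1.01 * 0.92) 1 (by norm_num),
    ev0 2 (1.01 * 0.95) 1 (by norm_num), tc (2 * K0) 0.7 (by norm_num),
    ev0 4 (1.01 * 0.67) 0.7 (by norm_num), ev1 (C1 * 2.4) (-0.3) 0 (by norm_num),
    ev1 (2 * (C1 * 2.4)) 0.7 (50/71) (by norm_num), ev0 4 0.7 (50/71) (by norm_num),
    ev0 8 (50/71) 0.706 (by norm_num), tl (0.6) (by norm_num), ev0 4 0.6 0.706 (by norm_num),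
    ev0 12 (1.01 * 0.53) 0.706 (by norm_num), ev0 (8 * (|L'| + 1)) (1.01 / 2) 0.706 (by norm_num),
    evh (8 / c1) 0.706 0.71 (by norm_num), tl (1/2) (by norm_num), tc K0 (1/2) (by norm_num),
    ev0 2 (1.01 * 0.49) (1/2) (by norm_num),
    (tendsto_rpow_mul_exp_neg_mul_atTop_nhds_zero 11 1 one_pos).eventually (gt_mem_nhds (show (0:ℝ) < 1 / 1024 by norm_num)),
    ev0 2 1.01 (80/71) (by norm_num), ev0 2 (50/71) 1 (by norm_num)] with a h3 g1 g2 g3 g4 g5 g6 g7 g8 g9 g10 g11 g12 g13 g14 g15 g16 g17 g18 g19 g20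
  have ha0 : 0 < a := by linarith
  have ha1 : 1 ≤ a := by linarith
  have hlog : 0 ≤ Real.log a := Real.log_nonneg ha1
  have hlog1 : 1 ≤ Real.log a := by
    rw [Real.le_log_iff_exp_le ha0]
    have := Real.exp_one_lt_d9
    linarith
  rw [Real.rpow_one] at g2 g3 g20
  rw [Real.rpow_zero] at g6
  rw [← Real.sqrt_eq_rpow] at g15 g16 g17
  have hpos7 : 0 < a ^ (0.7:ℝ) := Real.rpow_pos_of_pos ha0 _
  have ha101 : a ≤ a ^ (1.01:ℝ) := by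
    calc a = a ^ (1:ℝ) := (Real.rpow_one a).symm
      _ ≤ _ := Real.rpow_le_rpow_of_exponent_le ha1 (by norm_num)
  have hexp : 1024 * a ^ (11:ℝ) ≤ Real.exp a := by
    have h := g18
    rw [neg_mul, one_mul, Real.exp_neg] at h
    have he := Real.exp_pos a
    rw [← div_eq_mul_inv, div_lt_iff₀ he] at h
    linarith
  refine ⟨ha1, g1, by linarith, g3, by linarith, ?_, ?_, ?_, g15, by linarith, ?_, ?_, by linarith, g20⟩
  · calc C1 * (2.4 * Real.log a) * a ^ (-0.3:ℝ) = C1 * 2.4 * (a ^ (-0.3:ℝ) * Real.log a) := by ring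
      _ ≤ 1 := g6
  · have : C1 * (2.4 * Real.log a) * a ^ (0.7:ℝ) = (2 * (C1 * 2.4) * (a ^ (0.7:ℝ) * Real.log a)) / 2 := by ring
    rw [this]
    linarith
  · -- main comparison
    have hs0 : 0 < Real.sqrt (Real.log a) := Real.sqrt_pos.mpr (by linarith)
    have hsq : Real.sqrt (2.4 * Real.log a) ≤ 2 * Real.sqrt (Real.log a) := by
      rw [Real.sqrt_mul (by norm_num)]
      refine mul_le_mul_of_nonneg_right ?_ (Real.sqrt_nonneg _)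
      rw [Real.sqrt_le_left (by norm_num)]
      norm_num
    have hspos : 0 < Real.sqrt (2.4 * Real.log a) := Real.sqrt_pos.mpr (by linarith)
    have hR : 2 * a ^ (0.706:ℝ) ≤ (a ^ (1.01:ℝ) / 2) * (c1 * a ^ (-0.3:ℝ) / Real.sqrt (2.4 * Real.log a)) := by
      have e1 : (a ^ (1.01:ℝ) / 2) * (c1 * a ^ (-0.3:ℝ) / Real.sqrt (2.4 * Real.log a)) =
          (c1 * a ^ (0.71:ℝ)) / (2 * Real.sqrt (2.4 * Real.log a)) := by
        have : a ^ (0.71:ℝ) = a ^ (1.01:ℝ) * a ^ (-0.3:ℝ) := by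
          rw [← Real.rpow_add ha0]; norm_num
        rw [this]
        field_simp
      rw [e1, le_div_iff₀ (by positivity)]
      have g14' : 8 * (a ^ (0.706:ℝ) * Real.sqrt (Real.log a)) ≤ c1 * a ^ (0.71:ℝ) := by
        have := mul_le_mul_of_nonneg_left g14 hc1.le
        calc 8 * (a ^ (0.706:ℝ) * Real.sqrt (Real.log a)) = c1 * (8 / c1 * (a ^ (0.706:ℝ) * Real.sqrt (Real.log a))) := by
              field_simp
          _ ≤ _ := this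
      have hp : 0 < a ^ (0.706:ℝ) := Real.rpow_pos_of_pos ha0 _
      calc 2 * a ^ (0.706:ℝ) * (2 * Real.sqrt (2.4 * Real.log a)) ≤
            2 * a ^ (0.706:ℝ) * (2 * (2 * Real.sqrt (Real.log a))) := by gcongr
        _ = 8 * (a ^ (0.706:ℝ) * Real.sqrt (Real.log a)) := by ring
        _ ≤ _ := g14'
    have e2 : (a ^ (1.01:ℝ)) ^ (0.53:ℝ) = a ^ (1.01 * 0.53 : ℝ) := by rw [← Real.rpow_mul ha0.le]
    have e3 : (L' + 1) * Real.sqrt (a + a ^ (1.01:ℝ)) ≤ a ^ (0.706:ℝ) / 4 := by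
      have e4 : Real.sqrt (a + a ^ (1.01:ℝ)) ≤ 2 * a ^ (1.01/2:ℝ) := by
        have : a ^ (1.01/2:ℝ) = Real.sqrt (a ^ (1.01:ℝ)) := by
          rw [Real.sqrt_eq_rpow, ← Real.rpow_mul ha0.le]; norm_num
        rw [this]
        calc Real.sqrt (a + a ^ (1.01:ℝ)) ≤ Real.sqrt (4 * a ^ (1.01:ℝ)) :=
              Real.sqrt_le_sqrt (by linarith)
          _ = 2 * Real.sqrt (a ^ (1.01:ℝ)) := by
              rw [Real.sqrt_mul (by norm_num)]; norm_num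
      calc (L' + 1) * Real.sqrt (a + a ^ (1.01:ℝ)) ≤ (|L'| + 1) * Real.sqrt (a + a ^ (1.01:ℝ)) := by
            gcongr; exact le_abs_self _
        _ ≤ (|L'| + 1) * (2 * a ^ (1.01/2:ℝ)) := by gcongr
        _ = (8 * (|L'| + 1) * a ^ (1.01/2:ℝ)) / 4 := by ring
        _ ≤ _ := by linarith
    rw [e2]
    linarith
  · have h5 : (2 * a ^ (1.01:ℝ)) ^ (10:ℕ) = 1024 * a ^ (10.1:ℝ) := by
      rw [mul_pow, ← Real.rpow_natCast (a ^ (1.01:ℝ)), ← Real.rpow_mul ha0.le]; norm_num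
    rw [h5]
    refine le_trans (mul_le_mul_of_nonneg_left ?_ (by norm_num)) hexp
    exact Real.rpow_le_rpow_of_exponent_le ha1 (by norm_num)
  · refine le_trans ?_ hexp
    rw [← Real.rpow_natCast a 10]
    have : a ^ ((10:ℕ):ℝ) ≤ a ^ (11:ℝ) := Real.rpow_le_rpow_of_exponent_le ha1 (by norm_num)
    have h6 : 0 < a ^ ((10:ℕ):ℝ) := Real.rpow_pos_of_pos ha0 _
    linarith

theorem least {f : ℕ → ℝ} {m n : ℕ} (hmn : m ≤ n) {X : ℝ} (hstep : ∀ R, f (R + 1) ≤ f R + 1)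
    (hm : f m < X) (hn : X ≤ f n) : ∃ R, m ≤ R ∧ R ≤ n ∧ X ≤ f R ∧ f R ≤ X + 1 := by
  classical
  have hex : ∃ R, m ≤ R ∧ X ≤ f R := ⟨n, hmn, hn⟩
  obtain ⟨h1, h2⟩ := Nat.find_spec hex
  have h3 : Nat.find hex ≤ n := Nat.find_min' hex ⟨hmn, hn⟩
  have h4 : Nat.find hex ≠ m := by
    intro h
    rw [h] at h2
    linarith
  refine ⟨Nat.find hex, h1, h3, h2, ?_⟩
  obtain ⟨k, hk⟩ : ∃ k, Nat.find hex = k + 1 := ⟨Nat.find hex - 1, by omega⟩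
  have hkR : ¬ (m ≤ k ∧ X ≤ f k) := Nat.find_min hex (by omega)
  have hk2 : f k < X := by
    by_contra hc
    exact hkR ⟨by omega, not_lt.mp hc⟩
  have h5 := hstep k
  rw [hk]
  linarith

/-- choice of the rank -/
theorem choose_rank {c1 C1 L' a H lP T v0 : ℝ} {Ra t0 : ℕ} (ha : a = Ra) (hL' : 1 ≤ L')
    (n1 : 1 ≤ a)
    (n7 : C1 * (2.4 * Real.log a) * a ^ (0.7:ℝ) + a ^ (0.7:ℝ) < a ^ (50/71:ℝ))
    (n8 : 2 * a ^ (50/71:ℝ) + Real.log (2 * a ^ (10:ℕ)) + 3 * (a ^ (1.01:ℝ)) ^ (0.53:ℝ) +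
        (L' + 1) * Real.sqrt (a + a ^ (1.01:ℝ)) ≤
        (a ^ (1.01:ℝ) / 2) * (c1 * a ^ (-0.3:ℝ) / Real.sqrt (2.4 * Real.log a)))
    (hc1 : 0 ≤ c1) (hH1 : H ≤ 1)
    (hHlo : c1 * a ^ (-0.3:ℝ) / Real.sqrt (2.4 * Real.log a) ≤ H)
    (hHhi : H ≤ C1 * (2.4 * Real.log a) * a ^ (-0.3:ℝ))
    (hTlo : a ^ (50/71:ℝ) ≤ T) (hThi : T ≤ 2 * a ^ (50/71:ℝ))
    (hlP0 : 0 ≤ lP) (hlP : lP ≤ Real.log (2 * a ^ (10:ℕ)))
    (ht0 : (t0:ℝ) ≤ a) (hv0 : 0 ≤ v0) (hv0' : v0 ≤ a ^ (0.7:ℝ)) :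
    ∃ R : ℕ, Ra ≤ R ∧ (R:ℝ) ≤ a ^ (1.01:ℝ) ∧
      T + lP ≤ R * H - 3 * (R:ℝ) ^ (0.53:ℝ) + v0 - (L' + 1) * Real.sqrt (t0 + R) ∧
      R * H - 3 * (R:ℝ) ^ (0.53:ℝ) + v0 - (L' + 1) * Real.sqrt (t0 + R) ≤ T + lP + 1 := by
  have ha0 : 0 < a := by linarith
  have ha101 : a ≤ a ^ (1.01:ℝ) := by
    calc a = a ^ (1:ℝ) := (Real.rpow_one a).symm
      _ ≤ _ := Real.rpow_le_rpow_of_exponent_le n1 (by norm_num)
  have h101 : 0 ≤ a ^ (1.01:ℝ) := Real.rpow_nonneg ha0.le _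
  have hRm1 : ((⌊a ^ (1.01:ℝ)⌋₊ : ℕ):ℝ) ≤ a ^ (1.01:ℝ) := Nat.floor_le h101
  have hRaRm : Ra ≤ ⌊a ^ (1.01:ℝ)⌋₊ := Nat.le_floor (by rw [← ha]; exact ha101)
  have hRm2 : a ^ (1.01:ℝ) / 2 ≤ ((⌊a ^ (1.01:ℝ)⌋₊ : ℕ):ℝ) := by
    have h5 := Nat.lt_floor_add_one (a ^ (1.01:ℝ))
    have h6 : (1:ℝ) ≤ ((⌊a ^ (1.01:ℝ)⌋₊ : ℕ):ℝ) := by
      have : (1:ℕ) ≤ ⌊a ^ (1.01:ℝ)⌋₊ := Nat.le_floor (by push_cast; linarith)
      exact_mod_cast this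
    linarith
  generalize ⌊a ^ (1.01:ℝ)⌋₊ = Rm at hRm1 hRm2 hRaRm
  obtain ⟨f, hf⟩ : ∃ f : ℕ → ℝ, ∀ R : ℕ, f R = R * H - 3 * (R:ℝ) ^ (0.53:ℝ) + v0 -
      (L' + 1) * Real.sqrt (t0 + R) := ⟨_, fun R => rfl⟩
  have hstep : ∀ R : ℕ, f (R + 1) ≤ f R + 1 := by
    intro R
    rw [hf, hf]
    have e1 : ((R:ℝ)) ^ (0.53:ℝ) ≤ ((R:ℝ) + 1) ^ (0.53:ℝ) :=
      Real.rpow_le_rpow (Nat.cast_nonneg _) (by linarith) (by norm_num)
    have e2 : Real.sqrt (t0 + R) ≤ Real.sqrt (t0 + (R + 1)) := Real.sqrt_le_sqrt (by linarith)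
    have e3 : (L' + 1) * Real.sqrt (t0 + R) ≤ (L' + 1) * Real.sqrt (t0 + (R + 1)) :=
      mul_le_mul_of_nonneg_left e2 (by linarith)
    simp only [Nat.cast_add, Nat.cast_one]
    linarith
  have hfRm : T + lP ≤ f Rm := by
    rw [hf]
    have e1 : ((Rm:ℝ)) ^ (0.53:ℝ) ≤ (a ^ (1.01:ℝ)) ^ (0.53:ℝ) :=
      Real.rpow_le_rpow (Nat.cast_nonneg _) hRm1 (by norm_num)
    have e2 : Real.sqrt (t0 + Rm) ≤ Real.sqrt (a + a ^ (1.01:ℝ)) := Real.sqrt_le_sqrt (by linarith)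
    have e3 : (L' + 1) * Real.sqrt (t0 + Rm) ≤ (L' + 1) * Real.sqrt (a + a ^ (1.01:ℝ)) :=
      mul_le_mul_of_nonneg_left e2 (by linarith)
    have e4 : (a ^ (1.01:ℝ) / 2) * (c1 * a ^ (-0.3:ℝ) / Real.sqrt (2.4 * Real.log a)) ≤ Rm * H :=
      mul_le_mul hRm2 hHlo (by positivity) (Nat.cast_nonneg _)
    linarith
  have hfRa : f Ra < T + lP := by
    rw [hf]
    have e1 : (0:ℝ) ≤ a ^ (0.53:ℝ) := Real.rpow_nonneg ha0.le _
    have e2 : 0 ≤ (L' + 1) * Real.sqrt (t0 + a) := mul_nonneg (by linarith) (Real.sqrt_nonneg _)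
    have e3 : a * H ≤ C1 * (2.4 * Real.log a) * a ^ (0.7:ℝ) := by
      have : a ^ (0.7:ℝ) = a * a ^ (-0.3:ℝ) := by
        rw [mul_comm, ← Real.rpow_add_one ha0.ne']; norm_num
      calc a * H ≤ a * (C1 * (2.4 * Real.log a) * a ^ (-0.3:ℝ)) := mul_le_mul_of_nonneg_left hHhi ha0.le
        _ = _ := by rw [this]; ring
    rw [← ha]
    linarith
  obtain ⟨R, h1, h2, h3, h4⟩ := least hRaRm hstep hfRa hfRm
  rw [hf] at h3 h4
  refine ⟨R, h1, ?_, h3, h4⟩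
  have : (R:ℝ) ≤ Rm := by exact_mod_cast h2
  exact this.trans hRm1

/-- the entropy gap bounds at `A = AR Ra` -/
theorem gap_bounds {Hf : ℝ → ℕ → ℝ} {A0 c1 C1 : ℝ}
    (h2 : ∀ A : ℝ, A0 ≤ A → ∀ P : ℕ, Real.exp (4 * A ^ 2) ≤ P →
      c1 * Real.exp (-A ^ 2 / 8) / A ≤ Hf A P ∧ Hf A P ≤ C1 * A ^ 2 * Real.exp (-A ^ 2 / 8))
    {a : ℝ} {Ra P : ℕ} (ha : a = Ra) (n1 : 1 ≤ a) (n2 : A0 ≤ Real.sqrt (2.4 * Real.log a))
    (hP : (Ra:ℝ) ^ 10 ≤ P) :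
    c1 * a ^ (-0.3:ℝ) / Real.sqrt (2.4 * Real.log a) ≤ Hf (AR Ra) P ∧
      Hf (AR Ra) P ≤ C1 * (2.4 * Real.log a) * a ^ (-0.3:ℝ) := by
  have ha0 : 0 < a := by linarith
  have hlogR : 0 ≤ Real.log a := Real.log_nonneg n1
  have hAR : AR Ra = Real.sqrt (2.4 * Real.log a) := by rw [ha]; rfl
  have hAR2 : AR Ra ^ 2 = 2.4 * Real.log a := by
    rw [hAR, Real.sq_sqrt (by positivity)]
  have hexp4 : Real.exp (4 * AR Ra ^ 2) ≤ P := by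
    rw [hAR2]
    refine le_trans ?_ hP
    rw [← ha, ← Real.rpow_natCast, Real.rpow_def_of_pos ha0]
    apply Real.exp_le_exp.2
    push_cast
    nlinarith
  obtain ⟨hHlo, hHhi⟩ := h2 (AR Ra) (by rw [hAR]; exact n2) P hexp4
  have hexp8 : Real.exp (-AR Ra ^ 2 / 8) = a ^ (-0.3:ℝ) := by
    rw [hAR2, Real.rpow_def_of_pos ha0]
    congr 1
    ring
  rw [hexp8] at hHhi hHlo
  rw [hAR2] at hHhi
  refine ⟨?_, hHhi⟩
  rwa [← hAR]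

end Tune

open Tune in
/-- G8a -/
theorem g8a (Hf : ℝ → ℕ → ℝ) (h1 : StmtBSlast Hf) (h2 : HBounds Hf) (h3 : StmtG7) :
    StmtG8a := by
  obtain ⟨R0, L, h1⟩ := h1
  obtain ⟨A0, c1, C1, hA0, hc1, hC1, h2⟩ := h2
  obtain ⟨Rs, c0, K0, hc0, h3⟩ := h3
  obtain ⟨L1, hL1L, hL10⟩ : ∃ L1 : ℝ, L ≤ L1 ∧ 0 ≤ L1 := ⟨max L 0, le_max_left _ _, le_max_right _ _⟩
  obtain ⟨L', hL'⟩ : ∃ L' : ℝ, L' = L1 + 2 := ⟨_, rfl⟩
  obtain ⟨Y0, hY⟩ := eventually_atTop.1 ((numerics A0 c1 C1 K0 L' hc1).and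
    ((eventually_ge_atTop (R0 : ℝ)).and (eventually_ge_atTop (Rs : ℝ))))
  have hT0 : ∀ᶠ T : ℝ in atTop, 1 ≤ T ∧ 2 * max Y0 1 ≤ T ^ (71/50:ℝ) :=
    (eventually_ge_atTop 1).and ((tendsto_rpow_atTop (by norm_num)).eventually_ge_atTop _)
  obtain ⟨T0, hT0⟩ := eventually_atTop.1 hT0
  refine ⟨c0 / 2, L', T0, by positivity, by linarith, fun T hT => ?_⟩
  obtain ⟨hT1, hTY⟩ := hT0 T hT
  have hT00 : 0 ≤ T := by linarith
  -- the parameter Ra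
  obtain ⟨Ra, hay, hya, ha1'⟩ : ∃ Ra : ℕ, (Ra:ℝ) ≤ T ^ (71/50:ℝ) ∧ T ^ (71/50:ℝ) < Ra + 1 ∧ (1:ℝ) ≤ Ra := by
    have hy2 : 2 ≤ T ^ (71/50:ℝ) := by
      have := le_max_right Y0 1; linarith
    refine ⟨⌊T ^ (71/50:ℝ)⌋₊, Nat.floor_le (by linarith), Nat.lt_floor_add_one _, ?_⟩
    have : (1:ℕ) ≤ ⌊T ^ (71/50:ℝ)⌋₊ := Nat.le_floor (by push_cast; linarith)
    exact_mod_cast this
  obtain ⟨a, ha⟩ : ∃ a : ℝ, a = Ra := ⟨_, rfl⟩
  rw [← ha] at hay hya ha1'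
  have hy2a : T ^ (71/50:ℝ) ≤ 2 * a := by linarith
  have haY : Y0 ≤ a := by
    have := le_max_left Y0 1; linarith
  obtain ⟨⟨n1, n2, n3, n4, n5, n6, n7, n8, n9, n10, n11, n12, n13, n14⟩, nR0, nRs⟩ := hY a haY
  clear hY hT0
  have ha0 : 0 < a := by linarith
  -- T versus a
  have hTy : T = (T ^ (71/50:ℝ)) ^ (50/71:ℝ) := by
    rw [← Real.rpow_mul hT00]; norm_num
  have hTlo : a ^ (50/71:ℝ) ≤ T := by
    rw [hTy]; exact Real.rpow_le_rpow ha0.le hay (by norm_num)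
  have hThi : T ≤ 2 * a ^ (50/71:ℝ) := by
    rw [hTy]
    calc (T ^ (71/50:ℝ)) ^ (50/71:ℝ) ≤ (2 * a) ^ (50/71:ℝ) :=
          Real.rpow_le_rpow (Real.rpow_nonneg hT00 _) hy2a (by norm_num)
      _ = 2 ^ (50/71:ℝ) * a ^ (50/71:ℝ) := Real.mul_rpow (by norm_num) ha0.le
      _ ≤ 2 * a ^ (50/71:ℝ) := by
          refine mul_le_mul_of_nonneg_right ?_ (Real.rpow_nonneg ha0.le _)
          calc (2:ℝ) ^ (50/71:ℝ) ≤ 2 ^ (1:ℝ) :=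
                Real.rpow_le_rpow_of_exponent_le (by norm_num) (by norm_num)
            _ = 2 := by norm_num
  -- the prime
  have hRa0 : Ra ^ 10 ≠ 0 := by
    have : 0 < Ra := by
      have : (0:ℝ) < Ra := by rw [← ha]; exact ha0
      exact_mod_cast this
    positivity
  obtain ⟨P, hPp, hP1, hP2⟩ := Nat.exists_prime_lt_and_le_two_mul _ hRa0
  have hP1' : (Ra : ℝ) ^ 10 ≤ P := by exact_mod_cast hP1.le
  have hP2' : (P : ℝ) ≤ 2 * (Ra : ℝ) ^ 10 := by exact_mod_cast hP2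
  have hPpos : (0:ℝ) < P := by exact_mod_cast hPp.pos
  have hP2a : (P:ℝ) ≤ 2 * a ^ (10:ℕ) := by rw [ha]; exact hP2'
  have hlogP : Real.log P ≤ Real.log (2 * a ^ (10:ℕ)) := Real.log_le_log hPpos hP2a
  have hlogP0 : 0 ≤ Real.log P := Real.log_natCast_nonneg P
  -- the entropy gap
  obtain ⟨hHlo, hHhi⟩ := gap_bounds h2 ha n1 n2 hP1'
  have hH1 : Hf (AR Ra) P ≤ 1 := hHhi.trans n6
  -- upper structure
  have h101 : 0 ≤ a ^ (1.01:ℝ) := Real.rpow_nonneg ha0.le _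
  have ha101 : a ≤ a ^ (1.01:ℝ) := by
    calc a = a ^ (1:ℝ) := (Real.rpow_one a).symm
      _ ≤ _ := Real.rpow_le_rpow_of_exponent_le n1 (by norm_num)
  obtain ⟨Rn, hRn1, hRn2⟩ : ∃ Rn : ℕ, a ^ (1.01:ℝ) ≤ Rn ∧ (Rn:ℝ) ≤ 2 * a ^ (1.01:ℝ) := by
    refine ⟨⌈a ^ (1.01:ℝ)⌉₊, Nat.le_ceil _, ?_⟩
    have := Nat.ceil_lt_add_one h101
    linarith
  have hRsRn : Rs ≤ Rn := by
    have : (Rs:ℝ) ≤ Rn := by linarith
    exact_mod_cast this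
  obtain ⟨t0, b, D, d, v0, hup, hD, hd, hb, ht0, hv0, hv0'⟩ := h3 Rn hRsRn
  have hRn0 : (0:ℝ) ≤ Rn := Nat.cast_nonneg _
  have hRnp : ∀ p : ℝ, 0 ≤ p → p ≤ 1 → (Rn:ℝ) ^ p ≤ 2 * a ^ (1.01 * p) := by
    intro p hp0 hp
    exact (Real.rpow_le_rpow hRn0 hRn2 hp0).trans (pow101 n1 hp)
  have hb' : (b:ℝ) ≤ a / 1000 := hb.trans ((hRnp _ (by norm_num) (by norm_num)).trans n3)
  have ht0' : (t0:ℝ) ≤ a := ht0.trans ((hRnp _ (by norm_num) (by norm_num)).trans n4)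
  have hv0'' : v0 ≤ a ^ (0.7:ℝ) := by
    have := hRnp 0.67 (by norm_num) (by norm_num)
    linarith
  obtain ⟨R, hR1, hR2, hR3, hR4⟩ := choose_rank (L' := L') (t0 := t0) ha
    (by linarith) n1 n7 n8 hc1.le hH1 hHlo hHhi hTlo hThi hlogP0 hlogP ht0' hv0 hv0''
  have hRaR : a ≤ R := by rw [ha]; exact_mod_cast hR1
  -- the last block
  have hd'' : 10 * (R:ℝ) ^ (0.53:ℝ) ≤ d := by
    refine le_trans ?_ hd
    have : (R:ℝ) ^ (0.53:ℝ) ≤ (Rn:ℝ) ^ (0.53:ℝ) :=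
      Real.rpow_le_rpow (Nat.cast_nonneg _) (hR2.trans hRn1) (by norm_num)
    linarith
  obtain ⟨v', hup', hv1, hv2⟩ := h1 Ra (by rw [ha] at nR0; exact_mod_cast nR0) P hPp hP1' hP2' R hR1
    (by rw [← ha]; exact hR2) t0 b D d c0 _ _ v0 hup hc0.le (by linarith) hd''
  have ht0n : (0:ℝ) ≤ t0 := Nat.cast_nonneg _
  -- window
  have hsqle : Real.sqrt a ≤ Real.sqrt (t0 + R) := Real.sqrt_le_sqrt (by linarith)
  have hsqle2 : Real.sqrt R ≤ Real.sqrt (t0 + R) := Real.sqrt_le_sqrt (by linarith)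
  have hcast : (((t0 + R : ℕ)) : ℝ) = (t0:ℝ) + R := by push_cast; ring
  have hwin : K0 + (Rn:ℝ) ^ (0.49:ℝ) + L * Real.sqrt R ≤ L' * Real.sqrt ((t0 + R : ℕ) : ℝ) := by
    rw [hcast]
    have e1 := hRnp 0.49 (by norm_num) (by norm_num)
    have e2 : L * Real.sqrt R ≤ L1 * Real.sqrt (t0 + R) :=
      mul_le_mul hL1L hsqle2 (Real.sqrt_nonneg _) hL10
    rw [hL', add_mul]
    linarith
  refine ⟨t0 + R, max D P, v', hup'.mono le_rfl le_rfl le_rfl le_rfl hwin hwin, ?_, ?_, ?_, ?_, ?_⟩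
  · -- t ≤ T^1.6
    rw [hcast]
    have e1 : a ^ (80/71:ℝ) ≤ T ^ (1.6:ℝ) := by
      calc a ^ (80/71:ℝ) = (a ^ (50/71:ℝ)) ^ (1.6:ℝ) := by
            rw [← Real.rpow_mul ha0.le]; norm_num
        _ ≤ T ^ (1.6:ℝ) := Real.rpow_le_rpow (Real.rpow_nonneg ha0.le _) hTlo (by norm_num)
    linarith
  · rw [hcast]
    linarith
  · have e1 : Real.exp a ≤ Real.exp (((t0 + R : ℕ)) : ℝ) := by
      rw [hcast]
      exact Real.exp_le_exp.2 (by linarith)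
    have e2 : (Rn:ℝ) ^ 10 ≤ (2 * a ^ (1.01:ℝ)) ^ (10:ℕ) := pow_le_pow_left₀ hRn0 hRn2 10
    have e3 : D ≤ Real.exp a := le_trans hD (le_trans e2 n11)
    have e4 : (P:ℝ) ≤ Real.exp a := le_trans hP2a n12
    exact le_trans (max_le e3 e4) e1
  · rw [hcast]
    linarith
  · rw [hcast]
    linarith

end Vale.Agent.P230.G
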