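import Mathlib

/-! P230, part G1: the abstract block lemma (random code + random cube directions). -/

set_option autoImplicit false

namespace Vale.Agent.P230.G.Blk

open Finset
open scoped Classical

noncomputable section

/-- indicator vector of a finset over a field -/
def ind {F n : Type*} [Field F] (E : Finset n) : n → F := fun j => if j ∈ E then 1 else 0

theorem card_cube_le {F n : Type*} [Field F] [Fintype n] (S : Submodule F (n → F))
    (W : Finset (Finset n)) (hW : ∀ E ∈ W, (ind E : n → F) ∈ S) :
    W.card ≤ 2 ^ Module.finrank F S := by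
  let φ : n → Module.Dual F S := fun j => (LinearMap.proj j).comp S.subtype
  obtain ⟨f, hf1, hf2, -⟩ := Submodule.exists_fun_fin_finrank_span_eq F (Set.range φ)
  have hm : Module.finrank F (Submodule.span F (Set.range φ)) ≤ Module.finrank F S := by
    calc _ ≤ Module.finrank F (Module.Dual F S) := Submodule.finrank_le _
      _ = _ := Subspace.dual_finrank_eq
  choose j hj using hf1
  refine le_trans ?_ (Nat.pow_le_pow_right (by norm_num) hm)
  have : W.card ≤ (Finset.univ : Finset (Fin (Module.finrank F
      (Submodule.span F (Set.range φ))) → Bool)).card := by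
    refine Finset.card_le_card_of_injOn (fun E i => decide (j i ∈ E)) (fun _ _ => by simp) ?_
    intro E hE E' hE' h
    have hEE : ∀ i, (j i ∈ E ↔ j i ∈ E') := by
      intro i
      have := congrFun h i
      simpa using this
    set x : S := ⟨ind E, hW E hE⟩ with hx
    set x' : S := ⟨ind E', hW E' hE'⟩ with hx'
    have h0 : ∀ ψ ∈ Submodule.span F (Set.range f), ψ (x - x') = 0 := by
      intro ψ hψ
      induction hψ using Submodule.span_induction with
      | mem ψ h =>
        obtain ⟨i, rfl⟩ := h
        rw [← hj i]
        simp [φ, hx, hx', ind, hEE i]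
      | zero => simp
      | add a b _ _ ha hb => simp [ha, hb]
      | smul c a _ ha => simp [ha]
    ext a
    have h1 : φ a (x - x') = 0 := h0 _ (by rw [hf2]; exact Submodule.subset_span ⟨a, rfl⟩)
    have h2 : (ind E a : F) = ind E' a := by
      have : (ind E a : F) - ind E' a = 0 := by simpa [φ, hx, hx'] using h1
      exact sub_eq_zero.mp this
    unfold ind at h2
    by_cases ha : a ∈ E <;> by_cases ha' : a ∈ E' <;> simp [ha, ha'] at h2 ⊢
  simpa using this

/-- from many cube points one can choose `ρ` linearly independent ones -/
theorem exists_indep {F n : Type*} [Field F] [Fintype n] (W : Finset (Finset n)) (ρ : ℕ)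
    (h : 2 ^ ρ < 2 * W.card) :
    ∃ L : Fin ρ → Finset n, (∀ i, L i ∈ W) ∧ LinearIndependent F (fun i => (ind (L i) : n → F)) := by
  obtain ⟨f, hf1, hf2, hf3⟩ := Submodule.exists_fun_fin_finrank_span_eq F ((fun E => (ind E : n → F)) '' (W : Set (Finset n)))
  have h1 := card_cube_le (F := F) (Submodule.span F ((fun E => (ind E : n → F)) '' (W : Set (Finset n)))) W
    (fun E hE => Submodule.subset_span ⟨E, hE, rfl⟩)
  have h2 : ρ ≤ Module.finrank F (Submodule.span F ((fun E => (ind E : n → F)) '' (W : Set (Finset n)))) := by
    by_contra hc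
    push Not at hc
    have h3 : 2 ^ (Module.finrank F (Submodule.span F ((fun E => (ind E : n → F)) '' (W : Set (Finset n)))) + 1) ≤ 2 ^ ρ :=
      Nat.pow_le_pow_right (by norm_num) hc
    rw [pow_succ] at h3
    omega
  choose L hL using hf1
  refine ⟨fun i => L (Fin.castLE h2 i), fun i => (hL _).1, ?_⟩
  have h4 := hf3.comp (Fin.castLE h2) (Fin.castLE_injective h2)
  have h5 : (fun i : Fin ρ => (ind (L (Fin.castLE h2 i)) : n → F)) = f ∘ Fin.castLE h2 := by
    funext i
    exact (hL (Fin.castLE h2 i)).2
  rw [h5]
  exact h4

/-- linearly independent combinations of independent uniform vectors are independent and uniform -/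
theorem card_lin {F V n : Type*} [Field F] [AddCommGroup V] [Module F V] [Fintype V] [Fintype n]
    {ρ : ℕ} (l : Fin ρ → n → F) (hl : LinearIndependent F l) (D : Finset V) (v : V) :
    ((univ.filter (fun β : n → V => ∀ i, v + ∑ j, l i j • β j ∈ D)).card : ℝ) *
      (Fintype.card V : ℝ) ^ ρ = (D.card : ℝ) ^ ρ * (Fintype.card V : ℝ) ^ Fintype.card n := by
  obtain ⟨T, hT⟩ : ∃ T : (n → F) →ₗ[F] (Fin ρ → F), ∀ i, T (l i) = Pi.single i 1 := by
    have h1 : LinearMap.ker (Fintype.linearCombination F l) = ⊥ := by
      rw [LinearMap.ker_eq_bot]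
      exact hl.fintypeLinearCombination_injective
    obtain ⟨T, hT⟩ := LinearMap.exists_leftInverse_of_injective _ h1
    refine ⟨T, fun i => ?_⟩
    have h2 : Fintype.linearCombination F l (Pi.single i 1) = l i := by
      simp [Fintype.linearCombination_apply_single]
    rw [← h2]
    exact congrArg (fun f => f (Pi.single i (1:F))) hT
  -- shifting
  let sh : (Fin ρ → V) → (n → V) := fun w j => ∑ i, (T (Pi.single j 1)) i • w i
  have hsh : ∀ w i, ∑ j, l i j • sh w j = w i := by
    intro w i
    have h3 : ∀ i', ∑ j, l i j * (T (Pi.single j 1)) i' = (Pi.single i (1:F) : Fin ρ → F) i' := by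
      intro i'
      have h4 : l i = ∑ j, l i j • (Pi.single j (1:F) : n → F) := by
        funext a
        simp [Finset.sum_apply, Pi.single_apply]
      have h5 : T (l i) = ∑ j, l i j • T (Pi.single j 1) := by
        conv_lhs => rw [h4]
        rw [map_sum]
        simp [map_smul]
      rw [← hT i, h5]
      simp
    calc ∑ j, l i j • sh w j = ∑ j, ∑ i', (l i j * (T (Pi.single j 1)) i') • w i' := by
          simp only [sh, Finset.smul_sum, smul_smul]
      _ = ∑ i', (∑ j, l i j * (T (Pi.single j 1)) i') • w i' := by
          rw [Finset.sum_comm]; simp only [Finset.sum_smul]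
      _ = w i := by simp only [h3]; simp [Pi.single_apply]
  have key : ∀ w : Fin ρ → V, (univ.filter (fun β : n → V => ∀ i, v + ∑ j, l i j • β j ∈ D)).card =
      (univ.filter (fun β : n → V => ∀ i, v + (∑ j, l i j • β j) + w i ∈ D)).card := by
    intro w
    refine Finset.card_bij (fun β _ => β - sh w) ?_ ?_ ?_
    · intro β hβ
      simp only [mem_filter, mem_univ, true_and] at hβ ⊢
      intro i
      have := hβ i
      have h6 : ∑ j, l i j • (β - sh w) j = ∑ j, l i j • β j - w i := by
        simp only [Pi.sub_apply, smul_sub, Finset.sum_sub_distrib, hsh]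
      rw [h6]
      convert this using 1
      abel
    · intro a _ b _ h
      exact sub_left_injective h
    · intro β hβ
      simp only [mem_filter, mem_univ, true_and] at hβ
      refine ⟨β + sh w, ?_, by simp⟩
      simp only [mem_filter, mem_univ, true_and]
      intro i
      have := hβ i
      have h6 : ∑ j, l i j • (β + sh w) j = ∑ j, l i j • β j + w i := by
        simp only [Pi.add_apply, smul_add, Finset.sum_add_distrib, hsh]
      rw [h6]
      convert this using 1
      abel
  have hcount : (univ.filter (fun β : n → V => ∀ i, v + ∑ j, l i j • β j ∈ D)).card *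
      Fintype.card (Fin ρ → V) = ∑ β : n → V, (univ.filter (fun w : Fin ρ → V =>
        ∀ i, v + (∑ j, l i j • β j) + w i ∈ D)).card := by
    calc _ = ∑ w : Fin ρ → V, (univ.filter (fun β : n → V =>
          ∀ i, v + (∑ j, l i j • β j) + w i ∈ D)).card := by
          rw [Finset.sum_congr rfl (fun w _ => (key w).symm)]
          simp [mul_comm]
      _ = _ := by
          simp only [Finset.card_filter]
          rw [Finset.sum_comm]
  have hin : ∀ β : n → V, (univ.filter (fun w : Fin ρ → V =>
        ∀ i, v + (∑ j, l i j • β j) + w i ∈ D)).card = D.card ^ ρ := by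
    intro β
    have : (univ.filter (fun w : Fin ρ → V => ∀ i, v + (∑ j, l i j • β j) + w i ∈ D)).card =
        (Fintype.piFinset (fun _ : Fin ρ => D)).card := by
      refine Finset.card_bij (fun w _ i => v + (∑ j, l i j • β j) + w i) ?_ ?_ ?_
      · intro w hw
        simp only [mem_filter, mem_univ, true_and] at hw
        simpa [Fintype.mem_piFinset] using hw
      · intro a _ b _ h
        funext i
        exact add_left_cancel (congrFun h i)
      · intro x hx
        refine ⟨fun i => x i - (v + ∑ j, l i j • β j), ?_, ?_⟩
        · simp only [mem_filter, mem_univ, true_and]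
          intro i
          simpa using (Fintype.mem_piFinset.mp hx i)
        · funext i
          simp
    rw [this]
    simp
  have h7 : (univ.filter (fun β : n → V => ∀ i, v + ∑ j, l i j • β j ∈ D)).card *
      Fintype.card V ^ ρ = D.card ^ ρ * Fintype.card V ^ Fintype.card n := by
    have h8 := hcount
    rw [Finset.sum_congr rfl (fun β _ => hin β)] at h8
    simp only [Finset.sum_const, Finset.card_univ, Fintype.card_fun, Fintype.card_fin, smul_eq_mul] at h8
    rw [h8]
    ring
  exact_mod_cast h7

end

end Vale.Agent.P230.G.Blk
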