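import Vale.Agent.P230.G.Up

/-! P230, part G: interface statements for the block step (BS), the recursion (G7), the tuning (G8a).
`HasUp t b D d c slo shi v` packages `Up` over some index type of cardinality `t` with at most `b`
free coordinates and `logV = v`. -/

set_option autoImplicit false

namespace Vale.Agent.P230.G

open Finset

/-- `log ((2 π e)^(t/2) / |det M|)` -/
noncomputable def logV {ι : Type*} [Fintype ι] [DecidableEq ι] (M : Matrix ι ι ℝ) : ℝ :=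
  (Fintype.card ι : ℝ) * Real.log (Real.sqrt (2 * Real.pi * Real.exp 1)) - Real.log |M.det|

/-- coarse spacing of the block with parameter `Ra` -/
noncomputable def AR (Ra : ℕ) : ℝ := Real.sqrt (2.4 * Real.log Ra)

def HasUp (t b : ℕ) (D : ℝ) (d : ℕ) (c slo shi v : ℝ) : Prop :=
  ∃ (ι : Type) (_ : Fintype ι) (_ : DecidableEq ι) (lev : ι → ℕ) (M : Matrix ι ι ℝ)
    (B : Finset ι), Fintype.card ι = t ∧ B.card ≤ b ∧ M.det ≠ 0 ∧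
      Up lev M B D d c slo shi ∧ logV M = v

/-- bounds for the entropy gap `Hf A P` (G2 (f)) -/
def HBounds (Hf : ℝ → ℕ → ℝ) : Prop :=
  ∃ A0 c0 C0 : ℝ, 1 ≤ A0 ∧ 0 < c0 ∧ 0 < C0 ∧ ∀ A : ℝ, A0 ≤ A → ∀ P : ℕ,
    Real.exp (4 * A ^ 2) ≤ P → c0 * Real.exp (-A ^ 2 / 8) / A ≤ Hf A P ∧
      Hf A P ≤ C0 * A ^ 2 * Real.exp (-A ^ 2 / 8)

/-- BS, intermediate block -/
def StmtBSint (Hf : ℝ → ℕ → ℝ) : Prop :=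
  ∃ R0 : ℕ, ∀ Ra : ℕ, R0 ≤ Ra → ∀ P : ℕ, P.Prime → (Ra : ℝ) ^ 10 ≤ P → (P : ℝ) ≤ 2 * Ra ^ 10 →
    ∀ (t b : ℕ) (D : ℝ) (d : ℕ) (c slo shi v : ℝ), HasUp t b D d c slo shi v → 0 ≤ c →
      (b : ℝ) ≤ Ra / 1000 → 10 * (Ra : ℝ) ^ (0.53 : ℝ) ≤ d →
      ∃ v' : ℝ, HasUp (t + Ra) Ra (max D P) ⌈(Ra : ℝ) ^ (0.59 : ℝ)⌉₊
          (c * (1 - (Ra : ℝ) ^ (-0.04 : ℝ))) (slo + (Ra : ℝ) ^ (0.53 : ℝ) + 1)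
          (shi + (Ra : ℝ) ^ (0.53 : ℝ) + 1) v' ∧
        Ra * Hf (AR Ra) P - 3 * (Ra : ℝ) ^ (0.53 : ℝ) - Real.log P ≤ v' - v ∧
          v' - v ≤ Ra * Hf (AR Ra) P - 3 * (Ra : ℝ) ^ (0.53 : ℝ)

/-- BS, last block -/
def StmtBSlast (Hf : ℝ → ℕ → ℝ) : Prop :=
  ∃ (R0 : ℕ) (L : ℝ), ∀ Ra : ℕ, R0 ≤ Ra → ∀ P : ℕ, P.Prime → (Ra : ℝ) ^ 10 ≤ P →
    (P : ℝ) ≤ 2 * Ra ^ 10 → ∀ R : ℕ, Ra ≤ R → (R : ℝ) ≤ (Ra : ℝ) ^ (1.01 : ℝ) →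
    ∀ (t b : ℕ) (D : ℝ) (d : ℕ) (c slo shi v : ℝ), HasUp t b D d c slo shi v → 0 ≤ c →
      (b : ℝ) ≤ R / 1000 → 10 * (R : ℝ) ^ (0.53 : ℝ) ≤ d →
      ∃ v' : ℝ, HasUp (t + R) 0 (max D P) 0 (c / 2) (slo + L * Real.sqrt R)
          (shi + L * Real.sqrt R) v' ∧
        R * Hf (AR Ra) P - 3 * (R : ℝ) ^ (0.53 : ℝ) - Real.log P ≤ v' - v ∧
          v' - v ≤ R * Hf (AR Ra) P - 3 * (R : ℝ) ^ (0.53 : ℝ)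

/-- G7: the recursion -/
def StmtG7 : Prop :=
  ∃ (Rs : ℕ) (c0 K0 : ℝ), 0 < c0 ∧ ∀ Rn : ℕ, Rs ≤ Rn →
    ∃ (t b : ℕ) (D : ℝ) (d : ℕ) (v : ℝ),
      HasUp t b D d c0 (K0 + (Rn : ℝ) ^ (0.49 : ℝ)) (K0 + (Rn : ℝ) ^ (0.49 : ℝ)) v ∧
      D ≤ (Rn : ℝ) ^ 10 ∧ 10 * (Rn : ℝ) ^ (0.53 : ℝ) ≤ d ∧ (b : ℝ) ≤ (Rn : ℝ) ^ (0.92 : ℝ) ∧
      (t : ℝ) ≤ (Rn : ℝ) ^ (0.95 : ℝ) ∧ 0 ≤ v ∧ v ≤ K0 + (Rn : ℝ) ^ (0.67 : ℝ)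

/-- G8a: last block and tuning -/
def StmtG8a : Prop :=
  ∃ c L' T0 : ℝ, 0 < c ∧ 1 ≤ L' ∧ ∀ T : ℝ, T0 ≤ T →
    ∃ (t : ℕ) (D v : ℝ), HasUp t 0 D 0 c (L' * Real.sqrt t) (L' * Real.sqrt t) v ∧
      (t : ℝ) ≤ T ^ (1.6 : ℝ) ∧ T ≤ t ∧ D ≤ Real.exp t ∧
      T + (L' + 1) * Real.sqrt t ≤ v ∧ v ≤ T + (L' + 2) * Real.sqrt t

end Vale.Agent.P230.G
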