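import Vale.Agent.P230.G.Tune

/-! P230, part G7: the recursion. -/

set_option autoImplicit false

namespace Vale.Agent.P230.G

open Finset Filter

namespace Rec

/-- all numerical facts of the recursion step, in terms of `r = R`, for every `n` with
`r^1.09 ≤ n ≤ r^1.1` -/
theorem numerics (A0 c1 C1 : ℝ) (hc1 : 0 < c1) :
    ∀ᶠ r : ℝ in atTop, 1 ≤ r ∧ A0 ≤ Real.sqrt (2.4 * Real.log r) ∧
      r ^ (0.92:ℝ) ≤ r / 1000 ∧
      2 * r ^ (10:ℝ) ≤ r ^ (10.9:ℝ) ∧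
      10 * r ^ (0.583:ℝ) ≤ r ^ (0.59:ℝ) ∧
      2 * r ≤ r ^ (1.0355:ℝ) ∧
      r ^ (0.49:ℝ) + r ^ (0.53:ℝ) + 1 ≤ r ^ (0.5341:ℝ) ∧
      r ^ (0.67:ℝ) + C1 * (2.4 * Real.log r) * r ^ (0.7:ℝ) ≤ r ^ (0.7303:ℝ) ∧
      3 * r ^ (0.53:ℝ) + Real.log (2 * r ^ (10:ℕ)) ≤
        c1 * r ^ (0.7:ℝ) / Real.sqrt (2.4 * Real.log r) ∧
      r ^ (-0.04:ℝ) + r ^ (-0.07:ℝ) + r ^ (-0.0327:ℝ) ≤ r ^ (-0.03:ℝ) := by
  have t1 : ∀ᶠ a : ℝ in atTop, A0 ≤ Real.sqrt (2.4 * Real.log a) := by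
    have : Tendsto (fun a : ℝ => Real.sqrt (2.4 * Real.log a)) atTop atTop :=
      Real.tendsto_sqrt_atTop.comp (Real.tendsto_log_atTop.const_mul_atTop (by norm_num))
    exact this.eventually_ge_atTop A0
  have tc : ∀ K q : ℝ, 0 < q → ∀ᶠ a : ℝ in atTop, K ≤ a ^ q := by
    intro K q hq
    exact (tendsto_rpow_atTop hq).eventually_ge_atTop K
  have tl : ∀ q : ℝ, 0 < q → ∀ᶠ a : ℝ in atTop, Real.log (2 * a ^ (10:ℕ)) + 1 ≤ a ^ q := by
    intro q hq
    filter_upwards [Tune.ev1 22 0 q hq, tc 22 q hq, eventually_ge_atTop (3:ℝ)] with a h1 h2 h3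
    have ha0 : 0 < a := by linarith
    rw [Real.log_mul (by norm_num) (by positivity), Real.log_pow]
    simp only [Real.rpow_zero, one_mul] at h1
    have h4 : Real.log 2 ≤ 1 := by
      have := Real.log_two_lt_d9; linarith
    push_cast
    nlinarith
  filter_upwards [eventually_ge_atTop (3:ℝ), t1, Tune.ev0 1000 0.92 1 (by norm_num),
    Tune.ev0 2 10 10.9 (by norm_num), Tune.ev0 10 0.583 0.59 (by norm_num),
    Tune.ev0 2 1 1.0355 (by norm_num), Tune.ev0 4 0.49 0.5341 (by norm_num),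
    Tune.ev0 4 0.53 0.5341 (by norm_num), tc 4 0.5341 (by norm_num),
    Tune.ev0 2 0.67 0.7303 (by norm_num), Tune.ev1 (2 * (C1 * 2.4)) 0.7 0.7303 (by norm_num),
    Tune.ev0 6 0.53 0.6 (by norm_num), tl 0.5 (by norm_num), Tune.ev0 2 0.5 0.6 (by norm_num),
    Tune.evh (4 / c1) 0.6 0.7 (by norm_num), Tune.ev0 3 (-0.04) (-0.03) (by norm_num),
    Tune.ev0 3 (-0.07) (-0.03) (by norm_num), Tune.ev0 3 (-0.0327) (-0.03) (by norm_num)]
    with a h3 g1 g2 g3 g4 g5 g6 g7 g8 g9 g10 g11 g12 g13 g14 g15 g16 g17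
  have ha0 : 0 < a := by linarith
  have ha1 : 1 ≤ a := by linarith
  have hlog1 : 1 ≤ Real.log a := by
    rw [Real.le_log_iff_exp_le ha0]
    have := Real.exp_one_lt_d9
    linarith
  rw [Real.rpow_one] at g2 g5
  refine ⟨ha1, g1, by linarith, g3, g4, g5, by linarith, ?_, ?_, by linarith⟩
  · have : C1 * (2.4 * Real.log a) * a ^ (0.7:ℝ) =
      (2 * (C1 * 2.4) * (a ^ (0.7:ℝ) * Real.log a)) / 2 := by ring
    rw [this]
    linarith
  · have hs0 : 0 < Real.sqrt (Real.log a) := Real.sqrt_pos.mpr (by linarith)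
    have hsq : Real.sqrt (2.4 * Real.log a) ≤ 2 * Real.sqrt (Real.log a) := by
      rw [Real.sqrt_mul (by norm_num)]
      refine mul_le_mul_of_nonneg_right ?_ (Real.sqrt_nonneg _)
      rw [Real.sqrt_le_left (by norm_num)]
      norm_num
    have hspos : 0 < Real.sqrt (2.4 * Real.log a) := Real.sqrt_pos.mpr (by linarith)
    have hp : 0 < a ^ (0.6:ℝ) := Real.rpow_pos_of_pos ha0 _
    have hR : a ^ (0.6:ℝ) + a ^ (0.6:ℝ) ≤ c1 * a ^ (0.7:ℝ) / Real.sqrt (2.4 * Real.log a) := by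
      rw [le_div_iff₀ hspos]
      have g14' : 4 * (a ^ (0.6:ℝ) * Real.sqrt (Real.log a)) ≤ c1 * a ^ (0.7:ℝ) := by
        have := mul_le_mul_of_nonneg_left g14 hc1.le
        calc 4 * (a ^ (0.6:ℝ) * Real.sqrt (Real.log a)) =
              c1 * (4 / c1 * (a ^ (0.6:ℝ) * Real.sqrt (Real.log a))) := by
              field_simp
          _ ≤ _ := this
      calc (a ^ (0.6:ℝ) + a ^ (0.6:ℝ)) * Real.sqrt (2.4 * Real.log a) ≤
            (a ^ (0.6:ℝ) + a ^ (0.6:ℝ)) * (2 * Real.sqrt (Real.log a)) := by gcongr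
        _ = 4 * (a ^ (0.6:ℝ) * Real.sqrt (Real.log a)) := by ring
        _ ≤ _ := g14'
    linarith

/-- base facts, in terms of `n = Rn` -/
theorem numerics_base : ∀ᶠ n : ℝ in atTop, 1 ≤ n ∧ (⌈10 * n ^ (0.53:ℝ)⌉₊ : ℝ) ≤ n ^ (0.92:ℝ) ∧
      n ^ (10/11:ℝ) + 1 ≤ n ^ (0.915:ℝ) ∧ n ^ (10/11:ℝ) + 2 ≤ n := by
  have tc : ∀ K q : ℝ, 0 < q → ∀ᶠ a : ℝ in atTop, K ≤ a ^ q := by
    intro K q hq
    exact (tendsto_rpow_atTop hq).eventually_ge_atTop K
  filter_upwards [eventually_ge_atTop (1:ℝ), Tune.ev0 20 0.53 0.92 (by norm_num),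
    tc 2 0.92 (by norm_num), Tune.ev0 2 (10/11) 0.915 (by norm_num), tc 2 0.915 (by norm_num),
    Tune.ev0 2 (10/11) 1 (by norm_num), eventually_ge_atTop (4:ℝ)] with n h1 h2 h3 h4 h5 h6 h7
  have h8 := Nat.ceil_lt_add_one (show 0 ≤ 10 * n ^ (0.53:ℝ) by positivity)
  rw [Real.rpow_one] at h6
  exact ⟨h1, by linarith, by linarith, by linarith⟩

/-- the top block as a `HasUp` -/
theorem hasUp_top (m : ℕ) : ∃ v : ℝ, HasUp m m 1 m ((1/5:ℝ) ^ m) m (3 * m) v ∧ 0 ≤ v ∧ v ≤ m := by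
  have hs : (2:ℝ) ≤ Real.sqrt (2 * Real.pi * Real.exp 1) := by
    apply Real.le_sqrt_of_sq_le
    have h1 := Real.pi_gt_three
    have h2 := Real.exp_one_gt_d9
    nlinarith
  have hs0 : 0 < Real.sqrt (2 * Real.pi * Real.exp 1) := by linarith
  have hs2 : Real.sqrt (2 * Real.pi * Real.exp 1) ≤ 2 * Real.exp 1 := by
    rw [Real.sqrt_le_left (by positivity)]
    have h1 := Real.pi_lt_d2
    have h2 := Real.exp_one_gt_d9
    nlinarith
  refine ⟨logV (Matrix.diagonal fun _ : Fin m => (2:ℝ)), ⟨Fin m, inferInstance, inferInstance,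
    fun _ => 0, Matrix.diagonal fun _ => 2, univ, by simp, by simp, ?_, ?_, rfl⟩, ?_, ?_⟩
  · rw [Matrix.det_diagonal]; simp
  · have := Up.top (ι := Fin m) (fun _ => 0)
    simpa using this
  all_goals
    unfold logV
    rw [Matrix.det_diagonal, Finset.prod_const, Finset.card_univ, abs_of_nonneg (by positivity),
      Fintype.card_fin, Real.log_pow, ← mul_sub]
  · refine mul_nonneg (Nat.cast_nonneg _) ?_
    have := Real.log_le_log (by norm_num) hs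
    linarith
  · have h1 : Real.log (Real.sqrt (2 * Real.pi * Real.exp 1)) ≤ Real.log 2 + 1 := by
      calc Real.log (Real.sqrt (2 * Real.pi * Real.exp 1)) ≤ Real.log (2 * Real.exp 1) :=
            Real.log_le_log hs0 hs2
        _ = Real.log 2 + 1 := by
            rw [Real.log_mul (by norm_num) (Real.exp_pos 1).ne', Real.log_exp]
    calc (m:ℝ) * (Real.log (Real.sqrt (2 * Real.pi * Real.exp 1)) - Real.log 2) ≤ m * 1 :=
          mul_le_mul_of_nonneg_left (by linarith) (Nat.cast_nonneg _)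
      _ = m := mul_one _

end Rec

open Rec in
/-- G7 -/
theorem g7 (Hf : ℝ → ℕ → ℝ) (h1 : StmtBSint Hf) (h2 : HBounds Hf) : StmtG7 := by
  obtain ⟨R0, h1⟩ := h1
  obtain ⟨A0, c1, C1, hA0, hc1, hC1, h2⟩ := h2
  obtain ⟨Y0, hY⟩ := eventually_atTop.1 (((numerics A0 c1 C1 hc1).and numerics_base).and
    (eventually_ge_atTop (R0 : ℝ)))
  -- thresholds
  obtain ⟨Rs, hRs⟩ : ∃ Rs : ℕ, Y0 ≤ Rs := exists_nat_ge Y0
  obtain ⟨Rb, hRb⟩ : ∃ Rb : ℕ, (Rs:ℝ) ^ (1.1:ℝ) ≤ Rb := exists_nat_ge _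
  obtain ⟨mb, hmb⟩ : ∃ mb : ℕ, mb = ⌈10 * (Rb:ℝ) ^ (0.53:ℝ)⌉₊ := ⟨_, rfl⟩
  obtain ⟨c0, hc0⟩ : ∃ c0 : ℝ, c0 = (1/5:ℝ) ^ mb / 2 := ⟨_, rfl⟩
  have hc0p : 0 < c0 := by rw [hc0]; positivity
  obtain ⟨K0, hK0⟩ : ∃ K0 : ℝ, K0 = 3 * mb := ⟨_, rfl⟩
  have hK00 : 0 ≤ K0 := by rw [hK0]; positivity
  -- the inductive statement
  have key : ∀ Rn : ℕ, Rs ≤ Rn → ∃ (t b : ℕ) (D : ℝ) (d : ℕ) (v : ℝ),
      HasUp t b D d (c0 * (1 + (Rn:ℝ) ^ (-0.03:ℝ))) (K0 + (Rn : ℝ) ^ (0.49 : ℝ))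
        (K0 + (Rn : ℝ) ^ (0.49 : ℝ)) v ∧
      D ≤ (Rn : ℝ) ^ 10 ∧ 10 * (Rn : ℝ) ^ (0.53 : ℝ) ≤ d ∧ (b : ℝ) ≤ (Rn : ℝ) ^ (0.92 : ℝ) ∧
      (t : ℝ) ≤ (Rn : ℝ) ^ (0.95 : ℝ) ∧ 0 ≤ v ∧ v ≤ K0 + (Rn : ℝ) ^ (0.67 : ℝ) := by
    intro Rn
    induction Rn using Nat.strong_induction_on with
    | _ Rn ih =>
      intro hRn
      have hRn' : (Rs:ℝ) ≤ Rn := by exact_mod_cast hRn
      obtain ⟨n, hn⟩ : ∃ n : ℝ, n = Rn := ⟨_, rfl⟩
      obtain ⟨⟨-, b1, b2, b3, b4⟩, -⟩ := hY n (by rw [hn]; linarith)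
      rw [← hn] at hRn'
      have hn0 : 0 < n := by linarith
      rcases le_or_gt Rn Rb with hle | hgt
      · -- base
        obtain ⟨m, hm⟩ : ∃ m : ℕ, m = ⌈10 * n ^ (0.53:ℝ)⌉₊ := ⟨_, rfl⟩
        rw [← hm] at b2
        have hmmb : m ≤ mb := by
          rw [hm, hmb]
          apply Nat.ceil_mono
          have : n ≤ Rb := by rw [hn]; exact_mod_cast hle
          have := Real.rpow_le_rpow hn0.le this (show (0:ℝ) ≤ 0.53 by norm_num)
          linarith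
        have hmmb' : (m:ℝ) ≤ mb := by exact_mod_cast hmmb
        obtain ⟨v, hv, hv0, hv1⟩ := hasUp_top m
        rw [← hn]
        have hp49 : 0 ≤ n ^ (0.49:ℝ) := Real.rpow_nonneg hn0.le _
        have hp67 : 0 ≤ n ^ (0.67:ℝ) := Real.rpow_nonneg hn0.le _
        have hm0 : (0:ℝ) ≤ m := Nat.cast_nonneg _
        refine ⟨m, m, 1, m, v, hv.mono le_rfl le_rfl le_rfl ?_ ?_ ?_, ?_, ?_, b2, ?_, hv0, ?_⟩
        · have e1 : n ^ (-0.03:ℝ) ≤ 1 := by
            rw [Real.rpow_neg hn0.le]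
            exact inv_le_one_of_one_le₀ (Real.one_le_rpow b1 (by norm_num))
          have e2 : (1/5:ℝ) ^ mb ≤ (1/5:ℝ) ^ m :=
            pow_le_pow_of_le_one (by norm_num) (by norm_num) hmmb
          have e3 : c0 * (1 + n ^ (-0.03:ℝ)) ≤ c0 * 2 := by
            apply mul_le_mul_of_nonneg_left _ hc0p.le
            linarith
          calc c0 * (1 + n ^ (-0.03:ℝ)) ≤ c0 * 2 := e3
            _ = (1/5:ℝ) ^ mb := by rw [hc0]; ring
            _ ≤ _ := e2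
        · rw [hK0]; linarith
        · rw [hK0]; linarith
        · exact one_le_pow₀ b1
        · rw [hm]; exact Nat.le_ceil _
        · refine b2.trans (Real.rpow_le_rpow_of_exponent_le b1 (by norm_num))
        · rw [hK0]; linarith
      · -- step
        obtain ⟨R, hR⟩ : ∃ R : ℕ, R = ⌈n ^ (10/11:ℝ)⌉₊ := ⟨_, rfl⟩
        obtain ⟨r, hr⟩ : ∃ r : ℝ, r = R := ⟨_, rfl⟩
        have hrlo : n ^ (10/11:ℝ) ≤ r := by rw [hr, hR]; exact Nat.le_ceil _
        have hrhi : r ≤ n ^ (10/11:ℝ) + 1 := by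
          rw [hr, hR]; exact (Nat.ceil_lt_add_one (Real.rpow_nonneg hn0.le _)).le
        have hrRs : (Rs:ℝ) ≤ r := by
          have e1 : (Rs:ℝ) ^ (1.1:ℝ) ≤ n := by
            refine hRb.trans ?_
            rw [hn]; exact_mod_cast hgt.le
          have e2 : (Rs:ℝ) = ((Rs:ℝ) ^ (1.1:ℝ)) ^ (10/11:ℝ) := by
            rw [← Real.rpow_mul (Nat.cast_nonneg _)]; norm_num
          calc (Rs:ℝ) = ((Rs:ℝ) ^ (1.1:ℝ)) ^ (10/11:ℝ) := e2
            _ ≤ n ^ (10/11:ℝ) := Real.rpow_le_rpow (Real.rpow_nonneg (Nat.cast_nonneg _) _) e1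
                (by norm_num)
            _ ≤ r := hrlo
        have hRRn : R < Rn := by
          have : r < n := by linarith
          rw [hr, hn] at this
          exact_mod_cast this
        have hRsR : Rs ≤ R := by
          rw [hr] at hrRs; exact_mod_cast hrRs
        obtain ⟨⟨⟨n1, n2, n3, n4, n5, n6, n7, n8, n9, n10⟩, -⟩, nR0⟩ := hY r (by linarith)
        have hr0 : 0 < r := by linarith
        have hnr : n ≤ r ^ (1.1:ℝ) := by
          have e2 : n = (n ^ (10/11:ℝ)) ^ (1.1:ℝ) := by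
            rw [← Real.rpow_mul hn0.le]; norm_num
          calc n = (n ^ (10/11:ℝ)) ^ (1.1:ℝ) := e2
            _ ≤ r ^ (1.1:ℝ) := Real.rpow_le_rpow (Real.rpow_nonneg hn0.le _) hrlo (by norm_num)
        have hrn : r ^ (1.09:ℝ) ≤ n := by
          calc r ^ (1.09:ℝ) ≤ (n ^ (0.915:ℝ)) ^ (1.09:ℝ) :=
                Real.rpow_le_rpow hr0.le (by linarith) (by norm_num)
            _ = n ^ (0.99735:ℝ) := by rw [← Real.rpow_mul hn0.le]; norm_num
            _ ≤ n ^ (1:ℝ) := Real.rpow_le_rpow_of_exponent_le b1 (by norm_num)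
            _ = n := Real.rpow_one n
        have hpow : ∀ p q : ℝ, 0 ≤ p → q ≤ 1.09 * p → r ^ q ≤ n ^ p := by
          intro p q hp hq
          calc r ^ q ≤ r ^ (1.09 * p) := Real.rpow_le_rpow_of_exponent_le n1 hq
            _ = (r ^ (1.09:ℝ)) ^ p := by rw [← Real.rpow_mul hr0.le]
            _ ≤ n ^ p := Real.rpow_le_rpow (Real.rpow_nonneg hr0.le _) hrn hp
        obtain ⟨t, b, D, d, v, hup, hD, hd, hb, ht, hv0, hv1⟩ := ih R hRRn hRsR
        rw [← hr] at hup hD hd hb ht hv1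
        -- the prime
        have hRa0 : R ^ 10 ≠ 0 := by
          have : 0 < R := by
            have : (0:ℝ) < R := by rw [← hr]; exact hr0
            exact_mod_cast this
          positivity
        obtain ⟨P, hPp, hP1, hP2⟩ := Nat.exists_prime_lt_and_le_two_mul _ hRa0
        have hP1' : (R : ℝ) ^ 10 ≤ P := by exact_mod_cast hP1.le
        have hP2' : (P : ℝ) ≤ 2 * (R : ℝ) ^ 10 := by exact_mod_cast hP2
        have hPpos : (0:ℝ) < P := by exact_mod_cast hPp.pos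
        have hP2a : (P:ℝ) ≤ 2 * r ^ (10:ℕ) := by rw [hr]; exact hP2'
        have hlogP : Real.log P ≤ Real.log (2 * r ^ (10:ℕ)) := Real.log_le_log hPpos hP2a
        obtain ⟨hHlo, hHhi⟩ := Tune.gap_bounds h2 hr n1 n2 hP1'
        have hpm03 : 0 < r ^ (-0.03:ℝ) := Real.rpow_pos_of_pos hr0 _
        obtain ⟨v', hup', hv'1, hv'2⟩ := h1 R (by rw [hr] at nR0; exact_mod_cast nR0) P hPp hP1'
          hP2' t b D d (c0 * (1 + r ^ (-0.03:ℝ))) _ _ v hup (by positivity)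
          (by rw [← hr]; linarith) (by rw [← hr]; exact hd)
        rw [← hr] at hup' hv'1 hv'2
        have hrH1 : c1 * r ^ (0.7:ℝ) / Real.sqrt (2.4 * Real.log r) ≤ r * Hf (AR R) P := by
          have e1 : r ^ (0.7:ℝ) = r * r ^ (-0.3:ℝ) := by
            rw [mul_comm, ← Real.rpow_add_one hr0.ne']; norm_num
          calc c1 * r ^ (0.7:ℝ) / Real.sqrt (2.4 * Real.log r) =
              r * (c1 * r ^ (-0.3:ℝ) / Real.sqrt (2.4 * Real.log r)) := by rw [e1]; ring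
            _ ≤ _ := mul_le_mul_of_nonneg_left hHlo hr0.le
        have hrH2 : r * Hf (AR R) P ≤ C1 * (2.4 * Real.log r) * r ^ (0.7:ℝ) := by
          have e1 : r ^ (0.7:ℝ) = r * r ^ (-0.3:ℝ) := by
            rw [mul_comm, ← Real.rpow_add_one hr0.ne']; norm_num
          calc r * Hf (AR R) P ≤ r * (C1 * (2.4 * Real.log r) * r ^ (-0.3:ℝ)) :=
                mul_le_mul_of_nonneg_left hHhi hr0.le
            _ = _ := by rw [e1]; ring
        have h53 : 0 ≤ r ^ (0.53:ℝ) := Real.rpow_nonneg hr0.le _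
        rw [← hn]
        refine ⟨t + R, R, max D P, ⌈r ^ (0.59:ℝ)⌉₊, v', hup'.mono le_rfl le_rfl le_rfl ?_ ?_ ?_,
          ?_, ?_, ?_, ?_, ?_, ?_⟩
        · -- constant
          rw [mul_assoc]
          refine mul_le_mul_of_nonneg_left ?_ hc0p.le
          have e1 : n ^ (-0.03:ℝ) ≤ r ^ (-0.0327:ℝ) := by
            have e2 : n ^ (-0.03:ℝ) ≤ (r ^ (1.09:ℝ)) ^ (-0.03:ℝ) :=
              Real.rpow_le_rpow_of_nonpos (Real.rpow_pos_of_pos hr0 _) hrn (by norm_num)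
            refine e2.trans (le_of_eq ?_)
            rw [← Real.rpow_mul hr0.le]; norm_num
          have e3 : r ^ (-0.03:ℝ) * r ^ (-0.04:ℝ) = r ^ (-0.07:ℝ) := by
            rw [← Real.rpow_add hr0]; norm_num
          calc 1 + n ^ (-0.03:ℝ) ≤ 1 + r ^ (-0.03:ℝ) - r ^ (-0.04:ℝ) - r ^ (-0.07:ℝ) := by linarith
            _ = (1 + r ^ (-0.03:ℝ)) * (1 - r ^ (-0.04:ℝ)) := by rw [← e3]; ring
        · have := hpow 0.49 0.5341 (by norm_num) (by norm_num)
          linarith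
        · have := hpow 0.49 0.5341 (by norm_num) (by norm_num)
          linarith
        · -- D
          have e1 : 2 * r ^ (10:ℕ) ≤ n ^ (10:ℕ) := by
            have e2 := hpow 10 10.9 (by norm_num) (by norm_num)
            rw [← Real.rpow_natCast r 10, ← Real.rpow_natCast n 10]
            push_cast
            linarith
          have e3 : 0 ≤ r ^ (10:ℕ) := by positivity
          exact max_le (by linarith) (by linarith)
        · have e1 : n ^ (0.53:ℝ) ≤ r ^ (0.583:ℝ) := by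
            calc n ^ (0.53:ℝ) ≤ (r ^ (1.1:ℝ)) ^ (0.53:ℝ) := Real.rpow_le_rpow hn0.le hnr (by norm_num)
              _ = r ^ (0.583:ℝ) := by rw [← Real.rpow_mul hr0.le]; norm_num
          have e2 := Nat.le_ceil (r ^ (0.59:ℝ))
          linarith
        · rw [← hr]
          calc r = r ^ (1:ℝ) := (Real.rpow_one r).symm
            _ ≤ n ^ (0.92:ℝ) := hpow 0.92 1 (by norm_num) (by norm_num)
        · have e1 := hpow 0.95 1.0355 (by norm_num) (by norm_num)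
          have e2 : r ^ (0.95:ℝ) ≤ r := by
            calc r ^ (0.95:ℝ) ≤ r ^ (1:ℝ) := Real.rpow_le_rpow_of_exponent_le n1 (by norm_num)
              _ = r := Real.rpow_one r
          push_cast
          rw [← hr]
          linarith
        · linarith
        · have e1 := hpow 0.67 0.7303 (by norm_num) (by norm_num)
          linarith
  refine ⟨Rs, c0, K0, hc0p, fun Rn hRn => ?_⟩
  obtain ⟨t, b, D, d, v, hup, hrest⟩ := key Rn hRn
  refine ⟨t, b, D, d, v, hup.mono le_rfl le_rfl le_rfl ?_ le_rfl le_rfl, hrest⟩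
  have : 0 ≤ (Rn:ℝ) ^ (-0.03:ℝ) := Real.rpow_nonneg (Nat.cast_nonneg _) _
  nlinarith

end Vale.Agent.P230.G
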