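import Vale.Agent.P230.G.Up
import Vale.Agent.P230.H852.Defs

/-!
# P230: states ⇒ `Typ`
-/

set_option linter.unusedSectionVars false

namespace Vale.Agent.P230.G

open Finset H852

variable {κ : Type*} [Fintype κ] [DecidableEq κ] {p : ℕ}

/-- the lifts allowed by a state -/
def lifts (u : ZMod p) : St → Finset ℤ
  | St.l0 => {k0 u}
  | St.l1 => {k1 u}
  | St.fr => {k0 u, k1 u}

/-- weight of one lift of a state -/
noncomputable def share (A w : ℝ) (b : Bool) (u : ZMod p) : St → ℝ
  | St.l0 => q0 A u - mm A w b u
  | St.l1 => q1 A u - mm A w b u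
  | St.fr => mm A w b u

/-- all lifts of a state vector -/
def liftv (u : κ → ZMod p) (σ : κ → St) : Finset (κ → ℤ) :=
  Fintype.piFinset fun i => lifts (u i) (σ i)

theorem NA_nonneg (A : ℝ) (P : ℕ) : 0 ≤ NA A P :=
  Finset.sum_nonneg fun _ _ => (Real.exp_pos _).le

theorem q0_nonneg (A : ℝ) (u : ZMod p) : 0 ≤ q0 A u := by
  unfold q0 gs
  have := NA_nonneg A p
  positivity

theorem q1_nonneg (A : ℝ) (u : ZMod p) : 0 ≤ q1 A u := by
  unfold q1 gs
  have := NA_nonneg A p
  positivity

theorem mm_nonneg (A w : ℝ) (b : Bool) (u : ZMod p) : 0 ≤ mm A w b u := by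
  unfold mm
  split_ifs
  · exact le_min (q0_nonneg A u) (q1_nonneg A u)
  · exact le_rfl

theorem mm_le_q0 (A w : ℝ) (b : Bool) (u : ZMod p) : mm A w b u ≤ q0 A u := by
  unfold mm
  split_ifs
  · exact min_le_left _ _
  · exact q0_nonneg A u

theorem mm_le_q1 (A w : ℝ) (b : Bool) (u : ZMod p) : mm A w b u ≤ q1 A u := by
  unfold mm
  split_ifs
  · exact min_le_right _ _
  · exact q1_nonneg A u

theorem share_nonneg (A w : ℝ) (b : Bool) (u : ZMod p) (s : St) : 0 ≤ share A w b u s := by
  cases s
  · exact sub_nonneg.2 (mm_le_q0 A w b u)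
  · exact sub_nonneg.2 (mm_le_q1 A w b u)
  · exact mm_nonneg A w b u

theorem k0_ne_k1 [NeZero p] (u : ZMod p) : k0 u ≠ k1 u := by
  unfold k0 k1
  have : (0 : ℤ) < p := by exact_mod_cast Nat.pos_of_ne_zero (NeZero.ne p)
  omega

/-- number of lifts times share = weight of the state -/
theorem card_mul_share [NeZero p] (A w : ℝ) (b : Bool) (u : ZMod p) (s : St) :
    ((lifts u s).card : ℝ) * share A w b u s = wt A w b u s := by
  cases s
  · simp [lifts, share, wt]
  · simp [lifts, share, wt]
  · simp only [lifts, share, wt]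
    rw [Finset.card_pair (k0_ne_k1 u)]
    norm_num

/-- the weight of a lift summed over the states that contain it -/
theorem sum_share_le [NeZero p] (A w : ℝ) (b : Bool) (u : ZMod p) (k : ℤ) :
    ∑ s : St, (if k ∈ lifts u s then share A w b u s else 0) ≤
      if k = k0 u ∨ k = k1 u then gs A p k / NA A p else 0 := by
  have huniv : (Finset.univ : Finset St) = {St.l0, St.l1, St.fr} := rfl
  rw [huniv, Finset.sum_insert (by decide), Finset.sum_insert (by decide), Finset.sum_singleton]
  simp only [lifts, share, Finset.mem_singleton, Finset.mem_insert]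
  by_cases h0 : k = k0 u
  · have h1 : k ≠ k1 u := h0 ▸ k0_ne_k1 u
    subst h0
    simp only [true_or, if_true, if_neg h1]
    unfold q0
    linarith
  · by_cases h1 : k = k1 u
    · subst h1
      simp only [or_true, if_true, if_neg h0]
      unfold q1
      linarith
    · simp [h0, h1]

/-- a product of state weights, as a sum over state vectors containing a lift vector -/
theorem sum_prod_share_le [NeZero p] (A w : ℝ) (b : κ → Bool) (u : κ → ZMod p) (k : κ → ℤ)
    (Om : Finset (κ → St)) :
    ∑ σ ∈ Om, (if k ∈ liftv u σ then ∏ i, share A w (b i) (u i) (σ i) else 0) ≤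
      ∏ i, (if k i = k0 (u i) ∨ k i = k1 (u i) then gs A p (k i) / NA A p else 0) := by
  have h1 : ∀ σ : κ → St, (if k ∈ liftv u σ then ∏ i, share A w (b i) (u i) (σ i) else 0) =
      ∏ i, (if k i ∈ lifts (u i) (σ i) then share A w (b i) (u i) (σ i) else 0) := by
    intro σ
    by_cases h : k ∈ liftv u σ
    · rw [if_pos h]
      apply Finset.prod_congr rfl
      intro i _
      rw [if_pos]
      exact (Fintype.mem_piFinset.1 h) i
    · rw [if_neg h]
      have : ∃ i, k i ∉ lifts (u i) (σ i) := by
        by_contra hne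
        push Not at hne
        exact h (Fintype.mem_piFinset.2 hne)
      obtain ⟨i, hi⟩ := this
      exact (Finset.prod_eq_zero (Finset.mem_univ i) (if_neg hi)).symm
  calc ∑ σ ∈ Om, (if k ∈ liftv u σ then ∏ i, share A w (b i) (u i) (σ i) else 0)
      ≤ ∑ σ : κ → St, (if k ∈ liftv u σ then ∏ i, share A w (b i) (u i) (σ i) else 0) := by
        apply Finset.sum_le_sum_of_subset_of_nonneg (Finset.subset_univ _)
        intro σ _ _
        split_ifs
        · exact Finset.prod_nonneg fun i _ => share_nonneg _ _ _ _ _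
        · exact le_rfl
    _ = ∏ i, ∑ s : St, (if k i ∈ lifts (u i) s then share A w (b i) (u i) s else 0) := by
        rw [Finset.sum_congr rfl fun σ _ => h1 σ]
        exact (Fintype.prod_sum (fun (i : κ) (s : St) =>
          if k i ∈ lifts (u i) s then share A w (b i) (u i) s else 0)).symm
    _ ≤ _ := by
        apply Finset.prod_le_prod
        · intro i _
          apply Finset.sum_nonneg
          intro s _
          split_ifs
          · exact share_nonneg _ _ _ _ _
          · exact le_rfl
        · intro i _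
          exact sum_share_le A w (b i) (u i) (k i)

/-- the free coordinates of a state vector -/
def frs (σ : κ → St) : Finset κ := Finset.univ.filter fun i => σ i = St.fr

/-- the base lift vector of a state vector -/
def base (u : κ → ZMod p) (σ : κ → St) : κ → ℤ := fun i =>
  if σ i = St.l0 then k0 (u i) else k1 (u i)

/-- the lifts of a state vector form a cube with step `p` -/
theorem sum_liftv [NeZero p] (u : κ → ZMod p) (σ : κ → St) (X : (κ → ℤ) → ℝ) :
    ∑ k ∈ liftv u σ, X k = ∑ E ∈ (frs σ).powerset, X (base u σ + (p : ℤ) • ind E) := by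
  have hp : (0 : ℤ) < p := by exact_mod_cast Nat.pos_of_ne_zero (NeZero.ne p)
  symm
  refine Finset.sum_nbij' (fun E => base u σ + (p : ℤ) • ind E)
    (fun k => Finset.univ.filter fun i => σ i = St.fr ∧ k i = k0 (u i)) ?_ ?_ ?_ ?_ ?_
  · intro E hE
    rw [Finset.mem_powerset] at hE
    unfold liftv
    rw [Fintype.mem_piFinset]
    intro i
    simp only [Pi.add_apply, Pi.smul_apply, smul_eq_mul, base, ind]
    by_cases hi : i ∈ E
    · have := (Finset.mem_filter.1 (hE hi)).2
      rw [if_pos hi, this]
      simp only [lifts, Finset.mem_insert, reduceCtorEq, if_false, k0, k1]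
      left
      ring
    · rw [if_neg hi]
      cases h : σ i
      · simp [lifts]
      · simp [lifts]
      · simp [lifts]
  · intro k _
    rw [Finset.mem_powerset]
    intro i hi
    rw [Finset.mem_filter] at hi
    exact Finset.mem_filter.2 ⟨Finset.mem_univ _, hi.2.1⟩
  · intro E hE
    rw [Finset.mem_powerset] at hE
    ext i
    rw [Finset.mem_filter]
    constructor
    · rintro ⟨_, h1, h2⟩
      by_contra hi
      simp only [Pi.add_apply, Pi.smul_apply, smul_eq_mul, base, ind] at h2
      rw [if_neg hi, h1] at h2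
      simp only [reduceCtorEq, if_false, k0, k1] at h2
      omega
    · intro hi
      have := (Finset.mem_filter.1 (hE hi)).2
      refine ⟨Finset.mem_univ _, this, ?_⟩
      simp only [Pi.add_apply, Pi.smul_apply, smul_eq_mul, base, ind]
      rw [if_pos hi, this]
      simp only [reduceCtorEq, if_false, k0, k1]
      ring
  · intro k hk
    unfold liftv at hk
    rw [Fintype.mem_piFinset] at hk
    funext i
    have hki := hk i
    simp only [Pi.add_apply, Pi.smul_apply, smul_eq_mul, base, ind, Finset.mem_filter,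
      Finset.mem_univ, true_and]
    cases h : σ i
    · rw [h] at hki
      simp only [lifts, Finset.mem_singleton] at hki
      simp [hki]
    · rw [h] at hki
      simp only [lifts, Finset.mem_singleton] at hki
      simp [hki]
    · rw [h] at hki
      simp only [lifts, Finset.mem_insert, Finset.mem_singleton] at hki
      rcases hki with hki | hki
      · simp only [hki, reduceCtorEq, if_false, and_self, if_true, k0, k1]
        ring
      · have hne : k1 (u i) ≠ k0 (u i) := (k0_ne_k1 (u i)).symm
        simp [hki, hne]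
  · intro E _
    rfl

theorem card_liftv [NeZero p] (u : κ → ZMod p) (σ : κ → St) :
    (liftv u σ).card = 2 ^ (frs σ).card := by
  have := sum_liftv u σ (fun _ => (1 : ℝ))
  simp only [Finset.sum_const, nsmul_eq_mul, mul_one, Finset.card_powerset] at this
  exact_mod_cast this

theorem card_liftv_mul_share [NeZero p] (A w : ℝ) (b : κ → Bool) (u : κ → ZMod p) (σ : κ → St) :
    ((liftv u σ).card : ℝ) * ∏ i, share A w (b i) (u i) (σ i) =
      ∏ i, wt A w (b i) (u i) (σ i) := by
  unfold liftv
  rw [Fintype.card_piFinset, Nat.cast_prod, ← Finset.prod_mul_distrib]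
  apply Finset.prod_congr rfl
  intro i _
  exact card_mul_share A w (b i) (u i) (σ i)

theorem lift_mem {u : ZMod p} {s : St} {k : ℤ} (h : k ∈ lifts u s) : k = k0 u ∨ k = k1 u := by
  cases s <;> simp only [lifts, Finset.mem_singleton, Finset.mem_insert] at h <;> tauto

theorem xlow_le {A : ℝ} {u : ZMod p} {s : St} {k : ℤ} (h : k ∈ lifts u s) :
    xlow A u s ≤ (del A p * k) ^ 2 := by
  cases s <;> simp only [lifts, Finset.mem_singleton, Finset.mem_insert] at h
  · subst h; exact le_rfl
  · subst h; exact le_rfl
  · rcases h with rfl | rfl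
    · exact min_le_left _ _
    · exact min_le_right _ _

theorem le_xhigh {A : ℝ} {u : ZMod p} {s : St} {k : ℤ} (h : k ∈ lifts u s) :
    (del A p * k) ^ 2 ≤ xhigh A u s := by
  cases s <;> simp only [lifts, Finset.mem_singleton, Finset.mem_insert] at h
  · subst h; exact le_rfl
  · subst h; exact le_rfl
  · rcases h with rfl | rfl
    · exact le_max_left _ _
    · exact le_max_right _ _

theorem abs_lift_le [NeZero p] {A : ℝ} (hA : 0 ≤ A) {u : ZMod p} {k : ℤ}
    (h : k = k0 u ∨ k = k1 u) : |del A p * k| ≤ A := by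
  have hp : (0 : ℝ) < p := by exact_mod_cast Nat.pos_of_ne_zero (NeZero.ne p)
  have hk : |(k : ℝ)| ≤ p := by
    have h1 := ZMod.val_lt u
    have : |k| ≤ (p : ℤ) := by
      rw [abs_le]
      unfold k0 k1 at h
      omega
    rw [← Int.cast_abs]
    exact_mod_cast this
  rw [abs_mul]
  unfold del
  rw [abs_of_nonneg (by positivity : (0 : ℝ) ≤ A / p)]
  calc A / p * |(k : ℝ)| ≤ A / p * p := by gcongr
    _ = A := by field_simp

/-- rounding error of one square -/
theorem round_sq [NeZero p] {A : ℝ} (hA : 0 ≤ A) {u : ZMod p} {k : ℤ}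
    (h : k = k0 u ∨ k = k1 u) {f : ℝ} (hf0 : 0 ≤ f) (hf1 : f < 1) :
    (del A p * k) ^ 2 - (2 * A * del A p + del A p ^ 2) ≤ (del A p * ((k : ℝ) + f)) ^ 2 ∧
      (del A p * ((k : ℝ) + f)) ^ 2 ≤ (del A p * k) ^ 2 + (2 * A * del A p + del A p ^ 2) := by
  have hd : 0 ≤ del A p := by unfold del; positivity
  have h1 := abs_le.1 (abs_lift_le hA h)
  set x : ℝ := del A p * k with hx
  have h2 : (del A p * ((k : ℝ) + f)) ^ 2 = x ^ 2 + 2 * x * (del A p * f) + (del A p * f) ^ 2 := by
    rw [hx]; ring
  have h3 : 0 ≤ del A p * f := mul_nonneg hd hf0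
  have h4 : del A p * f ≤ del A p := by nlinarith
  have h5 : 2 * x * (del A p * f) ≤ 2 * A * del A p := by
    calc 2 * x * (del A p * f) ≤ 2 * A * (del A p * f) := by nlinarith [h1.2]
      _ ≤ 2 * A * del A p := by nlinarith
  have h6 : -(2 * A * del A p) ≤ 2 * x * (del A p * f) := by
    calc -(2 * A * del A p) ≤ -(2 * A * (del A p * f)) := by nlinarith
      _ ≤ 2 * x * (del A p * f) := by nlinarith [h1.1]
  have h7 : (del A p * f) ^ 2 ≤ del A p ^ 2 := by
    apply pow_le_pow_left₀ h3 h4
  have h8 : 0 ≤ (del A p * f) ^ 2 := sq_nonneg _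
  have h9 : 0 ≤ del A p ^ 2 := sq_nonneg _
  rw [h2]
  constructor <;> linarith

open Classical in
/-- the captured mass of the set `Om` of pairs (residue vector, state vector) -/
noncomputable def gOm (A w : ℝ) (b : κ → Bool) (Om : Finset ((κ → ZMod p) × (κ → St)))
    (u : κ → ZMod p) : ℝ :=
  ∑ σ ∈ Finset.univ.filter (fun σ => (u, σ) ∈ Om), ∏ i, wt A w (b i) (u i) (σ i)

/-- states ⇒ `Typ` -/
theorem typ_of_states [NeZero p] {A w : ℝ} (hA : 0 ≤ A) (b : κ → Bool)
    (Om : Finset ((κ → ZMod p) × (κ → St))) (d : ℕ) (lo hi θ : ℝ) (hθ : 0 ≤ θ)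
    (hfree : ∀ x ∈ Om, d ≤ (frs x.2).card)
    (hlow : ∀ x ∈ Om, lo ≤ ∑ i, xlow A (x.1 i) (x.2 i))
    (hhigh : ∀ x ∈ Om, ∑ i, xhigh A (x.1 i) (x.2 i) ≤ hi)
    (hround : (Fintype.card κ : ℝ) * (2 * A * del A p + del A p ^ 2) ≤ 1)
    (hθ' : θ ≤ (del A p * NA A p / Real.sqrt (2 * Real.pi)) ^ (Fintype.card κ) *
      Real.exp (-((Fintype.card κ : ℝ) * (2 * A * del A p + del A p ^ 2)) / 2)) :
    Typ p (del A p) (Finset.univ.filter fun i => b i = true) d ((Fintype.card κ : ℝ) - lo + 1)
      (hi - (Fintype.card κ : ℝ) + 1) (fun u => θ * gOm A w b Om u) := by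
  classical
  have hp : (0 : ℝ) < p := by exact_mod_cast Nat.pos_of_ne_zero (NeZero.ne p)
  have hd0 : 0 ≤ del A p := by unfold del; positivity
  intro u
  set OmU : Finset (κ → St) := Finset.univ.filter (fun σ => (u, σ) ∈ Om) with hOmU
  have hmemU : ∀ σ, σ ∈ OmU ↔ (u, σ) ∈ Om := by
    intro σ
    rw [hOmU, Finset.mem_filter]
    simp only [Finset.mem_univ, true_and]
  refine ⟨OmU.biUnion fun σ => liftv u σ, fun k => θ * ∑ σ ∈ OmU,
    (if k ∈ liftv u σ then ∏ i, share A w (b i) (u i) (σ i) else 0), ?_, ?_, ?_⟩
  · intro k hk i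
    rw [Finset.mem_biUnion] at hk
    obtain ⟨σ, _, hk⟩ := hk
    exact lift_mem ((Fintype.mem_piFinset.1 hk) i)
  · intro k hk f hf
    rw [Finset.mem_biUnion] at hk
    obtain ⟨σ, hσ, hk⟩ := hk
    have hki : ∀ i, k i ∈ lifts (u i) (σ i) := Fintype.mem_piFinset.1 hk
    have hkl : ∀ i, k i = k0 (u i) ∨ k i = k1 (u i) := fun i => lift_mem (hki i)
    have hr := fun i => round_sq hA (hkl i) (hf i).1 (hf i).2
    refine ⟨?_, ?_, ?_, ?_⟩
    · apply mul_nonneg hθ
      apply Finset.sum_nonneg
      intro σ _
      split_ifs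
      · exact Finset.prod_nonneg fun i _ => share_nonneg _ _ _ _ _
      · exact le_rfl
    · have h1 := sum_prod_share_le A w b u k OmU
      have h2 : ∏ i, (if k i = k0 (u i) ∨ k i = k1 (u i) then gs A p (k i) / NA A p else 0) =
          ∏ i, (gs A p (k i) / NA A p) :=
        Finset.prod_congr rfl fun i _ => if_pos (hkl i)
      rw [h2] at h1
      have hNA : 0 < NA A p := by
        unfold NA
        apply Finset.sum_pos
        · intro k _
          exact Real.exp_pos _
        · exact ⟨0, by
            rw [Finset.mem_Ico]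
            have : (0 : ℤ) < p := by exact_mod_cast hp
            omega⟩
      have hprod0 : 0 ≤ ∏ i, (gs A p (k i) / NA A p) :=
        Finset.prod_nonneg fun i _ => div_nonneg (Real.exp_pos _).le hNA.le
      calc θ * ∑ σ ∈ OmU, (if k ∈ liftv u σ then ∏ i, share A w (b i) (u i) (σ i) else 0)
          ≤ θ * ∏ i, (gs A p (k i) / NA A p) := mul_le_mul_of_nonneg_left h1 hθ
        _ ≤ ((del A p * NA A p / Real.sqrt (2 * Real.pi)) ^ (Fintype.card κ) *
              Real.exp (-((Fintype.card κ : ℝ) * (2 * A * del A p + del A p ^ 2)) / 2)) *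
              ∏ i, (gs A p (k i) / NA A p) := mul_le_mul_of_nonneg_right hθ' hprod0
        _ = ∏ i, ((del A p * NA A p / Real.sqrt (2 * Real.pi)) *
              Real.exp (-(2 * A * del A p + del A p ^ 2) / 2) * (gs A p (k i) / NA A p)) := by
            rw [Finset.prod_mul_distrib, Finset.prod_const, Finset.card_univ, mul_pow,
              ← Real.exp_nat_mul]
            congr 3
            ring
        _ ≤ _ := by
            apply Finset.prod_le_prod
            · intro i _
              have := Real.exp_pos (-(del A p * (k i : ℝ)) ^ 2 / 2)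
              unfold gs
              positivity
            · intro i _
              have h3 : Real.exp (-(2 * A * del A p + del A p ^ 2) / 2) * gs A p (k i) ≤
                  Real.exp (-(del A p * ((k i : ℝ) + f i)) ^ 2 / 2) := by
                unfold gs
                rw [← Real.exp_add]
                apply Real.exp_le_exp.2
                have := (hr i).2
                linarith
              calc (del A p * NA A p / Real.sqrt (2 * Real.pi)) *
                    Real.exp (-(2 * A * del A p + del A p ^ 2) / 2) * (gs A p (k i) / NA A p)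
                  = del A p * (Real.sqrt (2 * Real.pi))⁻¹ *
                    (Real.exp (-(2 * A * del A p + del A p ^ 2) / 2) * gs A p (k i)) := by
                    field_simp
                _ ≤ _ := mul_le_mul_of_nonneg_left h3 (by positivity)
    · have h1 := hlow (u, σ) ((hmemU σ).1 hσ)
      have h2 : ∑ i, (xlow A (u i) (σ i) - (2 * A * del A p + del A p ^ 2)) ≤
          ∑ i, (del A p * ((k i : ℝ) + f i)) ^ 2 := by
        apply Finset.sum_le_sum
        intro i _
        have h3 := (hr i).1
        have h4 := xlow_le (A := A) (hki i)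
        linarith
      rw [Finset.sum_sub_distrib, Finset.sum_const, Finset.card_univ, nsmul_eq_mul] at h2
      simp only at h1
      linarith
    · have h1 := hhigh (u, σ) ((hmemU σ).1 hσ)
      have h2 : ∑ i, (del A p * ((k i : ℝ) + f i)) ^ 2 ≤
          ∑ i, (xhigh A (u i) (σ i) + (2 * A * del A p + del A p ^ 2)) := by
        apply Finset.sum_le_sum
        intro i _
        have h3 := (hr i).2
        have h4 := le_xhigh (A := A) (hki i)
        linarith
      rw [Finset.sum_add_distrib, Finset.sum_const, Finset.card_univ, nsmul_eq_mul] at h2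
      simp only at h1
      linarith
  · intro μ X hμ hX hCA
    have hexch : ∑ k ∈ OmU.biUnion (fun σ => liftv u σ), (θ * ∑ σ ∈ OmU,
        (if k ∈ liftv u σ then ∏ i, share A w (b i) (u i) (σ i) else 0)) * X k =
        θ * ∑ σ ∈ OmU, (∏ i, share A w (b i) (u i) (σ i)) * ∑ k ∈ liftv u σ, X k := by
      have h1 : ∀ k, (θ * ∑ σ ∈ OmU,
          (if k ∈ liftv u σ then ∏ i, share A w (b i) (u i) (σ i) else 0)) * X k =
          θ * ∑ σ ∈ OmU, (if k ∈ liftv u σ then
            (∏ i, share A w (b i) (u i) (σ i)) * X k else 0) := by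
        intro k
        rw [mul_assoc, Finset.sum_mul]
        congr 1
        apply Finset.sum_congr rfl
        intro σ _
        split_ifs
        · rfl
        · rw [zero_mul]
      rw [Finset.sum_congr rfl fun k _ => h1 k, ← Finset.mul_sum, Finset.sum_comm]
      congr 1
      apply Finset.sum_congr rfl
      intro σ hσ
      rw [Finset.mul_sum, ← Finset.sum_filter]
      apply Finset.sum_congr _ fun _ _ => rfl
      ext k
      rw [Finset.mem_filter, Finset.mem_biUnion]
      exact ⟨fun h => h.2, fun h => ⟨⟨σ, hσ, h⟩, h⟩⟩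
    rw [hexch]
    have hmain : μ * gOm A w b Om u ≤
        ∑ σ ∈ OmU, (∏ i, share A w (b i) (u i) (σ i)) * ∑ k ∈ liftv u σ, X k := by
      unfold gOm
      rw [Finset.mul_sum]
      have hset : Finset.univ.filter (fun σ => (u, σ) ∈ Om) = OmU := by
        ext σ
        rw [hmemU σ]
      rw [hset]
      apply Finset.sum_le_sum
      intro σ hσ
      rw [← card_liftv_mul_share, card_liftv, sum_liftv]
      by_cases hB : frs σ ⊆ Finset.univ.filter fun i => b i = true
      · have h1 := hCA (base u σ) (frs σ) hB (hfree (u, σ) ((hmemU σ).1 hσ))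
        have h2 : 0 ≤ ∏ i, share A w (b i) (u i) (σ i) :=
          Finset.prod_nonneg fun i _ => share_nonneg _ _ _ _ _
        push_cast
        nlinarith
      · have : ∃ i, i ∈ frs σ ∧ b i ≠ true := by
          by_contra hne
          push Not at hne
          apply hB
          intro i hi
          exact Finset.mem_filter.2 ⟨Finset.mem_univ _, hne i hi⟩
        obtain ⟨i, hi, hbi⟩ := this
        have hσi : σ i = St.fr := (Finset.mem_filter.1 hi).2
        have h0 : ∏ i, share A w (b i) (u i) (σ i) = 0 := by
          apply Finset.prod_eq_zero (Finset.mem_univ i)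
          rw [hσi]
          simp [share, mm, hbi]
        rw [h0]
        simp
    calc μ * (θ * gOm A w b Om u) = θ * (μ * gOm A w b Om u) := by ring
      _ ≤ _ := mul_le_mul_of_nonneg_left hmain hθ

end Vale.Agent.P230.G
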