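import Mathlib

/-!
# P230, part G: tree-like sets, cube averages, the structure `Up`, and composition

All index types are finite types with a level function `lev : ι → ℕ` (ties allowed); a fibre is taken
over the strictly higher levels.
-/

namespace Vale.Agent.P230.G

open Finset

/-- indicator of a finset as an integer vector -/
def ind {ι : Type*} [DecidableEq ι] (E : Finset ι) : ι → ℤ := fun a => if a ∈ E then 1 else 0

/-- `x = y + M z` -/
noncomputable def pos {ι : Type*} [Fintype ι] (M : Matrix ι ι ℝ) (y : ι → ℝ) (z : ι → ℤ) : ι → ℝ :=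
  fun i => y i + M.mulVec (fun a => (z a : ℝ)) i

/-- squared length -/
noncomputable def nsq {ι : Type*} [Fintype ι] (x : ι → ℝ) : ℝ := ∑ i, x i ^ 2

/-- Gaussian weight of a lattice point: `|det M| (2π)^{-t/2} exp (-|y + M z|² / 2)` -/
noncomputable def gw {ι : Type*} [Fintype ι] [DecidableEq ι] (M : Matrix ι ι ℝ) (y : ι → ℝ)
    (z : ι → ℤ) : ℝ :=
  |M.det| * (Real.sqrt (2 * Real.pi))⁻¹ ^ (Fintype.card ι) * Real.exp (-nsq (pos M y z) / 2)

/-- tree-like: over the strictly higher levels a coordinate takes at most two values, and they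
differ by at most `D` -/
def TreeLike {ι : Type*} (lev : ι → ℕ) (D : ℝ) (P : Finset (ι → ℤ)) : Prop :=
  ∀ a : ι, ∀ z ∈ P, ∀ z' ∈ P, ∀ z'' ∈ P,
    (∀ b, lev a < lev b → z b = z' b) → (∀ b, lev a < lev b → z b = z'' b) →
      (z a = z' a ∨ z a = z'' a ∨ z' a = z'' a) ∧ |((z a - z' a : ℤ) : ℝ)| ≤ D

/-- all averages of `X` over cubes of dimension at least `d` with step `h` in the directions of `B`
are at least `μ` -/
def CA {ι : Type*} [DecidableEq ι] (h : ℤ) (B : Finset ι) (d : ℕ) (μ : ℝ) (X : (ι → ℤ) → ℝ) :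
    Prop :=
  ∀ z : ι → ℤ, ∀ J ⊆ B, d ≤ J.card → μ * 2 ^ J.card ≤ ∑ E ∈ J.powerset, X (z + h • ind E)

/-- the recursive structure of part G (G4): for every phase `y` there is a finite tree-like set `P`
of lattice points with weights `w` below the Gaussian weight, in the shell
`t - slo ≤ |y + M z|² ≤ t + shi`, which captures the constant `c` of every function all of whose cube
averages (directions in `B`, dimension at least `d`) are large -/
def Up {ι : Type*} [Fintype ι] [DecidableEq ι] (lev : ι → ℕ) (M : Matrix ι ι ℝ) (B : Finset ι)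
    (D : ℝ) (d : ℕ) (c slo shi : ℝ) : Prop :=
  ∀ y : ι → ℝ, ∃ (P : Finset (ι → ℤ)) (w : (ι → ℤ) → ℝ),
    TreeLike lev D P ∧
    (∀ z ∈ P, 0 ≤ w z ∧ w z ≤ gw M y z ∧
      (Fintype.card ι : ℝ) - slo ≤ nsq (pos M y z) ∧
        nsq (pos M y z) ≤ (Fintype.card ι : ℝ) + shi) ∧
    ∀ (μ : ℝ) (X : (ι → ℤ) → ℝ), 0 ≤ μ → (∀ z, 0 ≤ X z) → CA 1 B d μ X →
      c * μ ≤ ∑ z ∈ P, w z * X z

/-- one-block typical-set data (what G3 provides): `κ` the coordinates of the block, `Bs` those which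
may be free, `p` the prime, `δ` the fine spacing (`A = p δ` is the coarse one), `g` the captured
mass. Only lifts `k i ∈ {u i, u i - p}` of the residue vector `u` are used. -/
def Typ {κ : Type*} [Fintype κ] [DecidableEq κ] (p : ℕ) (δ : ℝ) (Bs : Finset κ) (d : ℕ)
    (slo shi : ℝ) (g : (κ → ZMod p) → ℝ) : Prop :=
  ∀ u : κ → ZMod p, ∃ (Q : Finset (κ → ℤ)) (w : (κ → ℤ) → ℝ),
    (∀ k ∈ Q, ∀ i, k i = ((u i).val : ℤ) ∨ k i = ((u i).val : ℤ) - p) ∧
    (∀ k ∈ Q, ∀ f : κ → ℝ, (∀ i, 0 ≤ f i ∧ f i < 1) →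
      0 ≤ w k ∧ w k ≤ ∏ i, (δ * (Real.sqrt (2 * Real.pi))⁻¹ *
        Real.exp (-(δ * ((k i : ℝ) + f i)) ^ 2 / 2)) ∧
      (Fintype.card κ : ℝ) - slo ≤ ∑ i, (δ * ((k i : ℝ) + f i)) ^ 2 ∧
        ∑ i, (δ * ((k i : ℝ) + f i)) ^ 2 ≤ (Fintype.card κ : ℝ) + shi) ∧
    ∀ (μ : ℝ) (X : (κ → ℤ) → ℝ), 0 ≤ μ → (∀ k, 0 ≤ X k) → CA p Bs d μ X →
      μ * g u ≤ ∑ k ∈ Q, w k * X k

/-- the captured mass of a phase `v : F^(S ⊕ C)` for the systematic code `k ↦ (k, k Bm)`:
`p^|C| g (v + c_k)` if exactly one codeword `c_k` brings `v` into the support of `g`, else `0` -/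
noncomputable def Xcap {S C : Type*} [Fintype S] [Fintype C] (p : ℕ)
    (g : (S ⊕ C → ZMod p) → ℝ) (Bm : Matrix S C (ZMod p)) (v : S ⊕ C → ZMod p) : ℝ :=
  open Classical in
  if h : ∃! k : S → ZMod p, g (v + Sum.elim k (Matrix.vecMul k Bm)) ≠ 0 then
    (p : ℝ) ^ (Fintype.card C) * g (v + Sum.elim h.choose (Matrix.vecMul h.choose Bm)) else 0

end Vale.Agent.P230.G
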